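import Mathlib

/-!
Row 63 (S0085).  Basic notions: uniform averages on finite types, and real functions of bounded
degree on a Boolean cube.
-/

set_option autoImplicit false

namespace Crest.Agent.R63

open Finset Function

/-! ### Uniform averages -/

/-- Uniform average over a finite type. -/
noncomputable def E {α : Type} [Fintype α] (f : α → ℝ) : ℝ := (∑ x, f x) / (Fintype.card α : ℝ)

section Avg
variable {α β : Type} [Fintype α] [Fintype β]

lemma E_add (f g : α → ℝ) : E (fun x => f x + g x) = E f + E g := by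
  simp [E, Finset.sum_add_distrib, add_div]

lemma E_sub (f g : α → ℝ) : E (fun x => f x - g x) = E f - E g := by
  simp [E, Finset.sum_sub_distrib, sub_div]

lemma E_neg (f : α → ℝ) : E (fun x => - f x) = - E f := by
  simp [E, Finset.sum_neg_distrib, neg_div]

lemma E_const_mul (c : ℝ) (f : α → ℝ) : E (fun x => c * f x) = c * E f := by
  simp [E, ← Finset.mul_sum, mul_div_assoc]

lemma E_mul_const (c : ℝ) (f : α → ℝ) : E (fun x => f x * c) = E f * c := by
  simp only [mul_comm _ c]; exact E_const_mul c f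

lemma E_div_const (c : ℝ) (f : α → ℝ) : E (fun x => f x / c) = E f / c := by
  simp only [div_eq_mul_inv]; exact E_mul_const _ f

lemma E_zero : E (fun _ : α => (0 : ℝ)) = 0 := by simp [E]

lemma E_const [Nonempty α] (c : ℝ) : E (fun _ : α => c) = c := by
  have : (Fintype.card α : ℝ) ≠ 0 := by positivity
  simp only [E, Finset.sum_const, Finset.card_univ, nsmul_eq_mul]
  field_simp

lemma E_sum {γ : Type} (s : Finset γ) (f : γ → α → ℝ) :
    E (fun x => ∑ i ∈ s, f i x) = ∑ i ∈ s, E (f i) := by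
  simp only [E]
  rw [Finset.sum_comm, Finset.sum_div]

lemma E_mono {f g : α → ℝ} (h : ∀ x, f x ≤ g x) : E f ≤ E g := by
  unfold E
  gcongr with x
  exact h x

lemma E_nonneg {f : α → ℝ} (h : ∀ x, 0 ≤ f x) : 0 ≤ E f := by
  have := E_mono (f := fun _ => (0 : ℝ)) (g := f) h
  rwa [E_zero] at this

lemma E_congr {f g : α → ℝ} (h : ∀ x, f x = g x) : E f = E g := by
  rw [show f = g from funext h]

lemma E_equiv (e : α ≃ β) (f : β → ℝ) : E (fun x => f (e x)) = E f := by
  unfold E
  rw [Fintype.card_congr e, Equiv.sum_comp e f]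

lemma E_prod (f : α × β → ℝ) : E f = E (fun a => E (fun b => f (a, b))) := by
  unfold E
  rw [Fintype.sum_prod_type, Fintype.card_prod, ← Finset.sum_div, div_div, Nat.cast_mul, mul_comm]

lemma E_comm (f : α → β → ℝ) : E (fun a => E (fun b => f a b)) = E (fun b => E (fun a => f a b)) := by
  unfold E
  simp only [← Finset.sum_div]
  rw [Finset.sum_comm, div_div, div_div, mul_comm]

lemma E_prod_mul (f : α → ℝ) (g : β → ℝ) :
    E (fun p : α × β => f p.1 * g p.2) = E f * E g := by
  rw [E_prod]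
  simp only [E_const_mul, E_mul_const]

/-- a nonnegative function with zero average vanishes -/
lemma eq_zero_of_E_eq_zero {f : α → ℝ} (h : ∀ x, 0 ≤ f x) (h0 : E f = 0) (x : α) : f x = 0 := by
  have : Nonempty α := ⟨x⟩
  have hc : (Fintype.card α : ℝ) ≠ 0 := by positivity
  have : ∑ x, f x = 0 := by
    unfold E at h0
    rcases div_eq_zero_iff.mp h0 with h1 | h1
    · exact h1
    · exact absurd h1 hc
  exact (Finset.sum_eq_zero_iff_of_nonneg (fun x _ => h x)).mp this x (Finset.mem_univ x)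

/-- an average that changes sign under a bijection vanishes -/
lemma E_eq_zero_of_equiv (e : α ≃ α) {f : α → ℝ} (h : ∀ x, f (e x) = - f x) : E f = 0 := by
  have h1 := E_equiv e f
  simp only [h, E_neg] at h1
  linarith

end Avg

section Pi
variable {J Ω : Type} [Fintype J] [DecidableEq J] [Fintype Ω]

/-- resampling one coordinate -/
lemma E_update [Nonempty Ω] (j : J) (f : (J → Ω) → ℝ) :
    E f = E (fun x => E (fun ω => f (update x j ω))) := by
  let e : (J → Ω) × Ω ≃ (J → Ω) × Ω :=
    { toFun := fun p => (update p.1 j p.2, p.1 j)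
      invFun := fun p => (update p.1 j p.2, p.1 j)
      left_inv := fun p => by simp
      right_inv := fun p => by simp }
  have h1 := E_equiv e (fun p => f p.1)
  rw [E_prod, E_prod (fun p : (J → Ω) × Ω => f p.1)] at h1
  simp only [E_const] at h1
  exact h1.symm

lemma E_indep [Nonempty Ω] (j : J) (f : (J → Ω) → ℝ) (g : Ω → ℝ)
    (hf : ∀ x ω, f (update x j ω) = f x) :
    E (fun x => f x * g (x j)) = E f * E g := by
  rw [E_update j]
  simp only [hf, update_self, E_const_mul, E_mul_const]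

lemma E_coord [Nonempty Ω] (j : J) (g : Ω → ℝ) : E (fun x : J → Ω => g (x j)) = E g := by
  have := E_indep j (fun _ => (1 : ℝ)) g (fun _ _ => rfl)
  simpa [E_const] using this

lemma E_pi_prod (f : J → Ω → ℝ) : E (fun x : J → Ω => ∏ j, f j (x j)) = ∏ j, E (f j) := by
  unfold E
  rw [Finset.prod_div_distrib, Finset.prod_univ_sum, Fintype.piFinset_univ, Fintype.card_fun]
  simp

/-- moments of a sum of independent centred variables -/
lemma moments [Nonempty Ω] (ξ : J → Ω → ℝ) (h0 : ∀ j, E (ξ j) = 0) (s : Finset J) :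
    E (fun x : J → Ω => ∑ j ∈ s, ξ j (x j)) = 0 ∧
    E (fun x : J → Ω => (∑ j ∈ s, ξ j (x j)) ^ 2) = ∑ j ∈ s, E (fun ω => ξ j ω ^ 2) ∧
    E (fun x : J → Ω => (∑ j ∈ s, ξ j (x j)) ^ 4) ≤
      3 * (∑ j ∈ s, E (fun ω => ξ j ω ^ 2)) ^ 2 + ∑ j ∈ s, E (fun ω => ξ j ω ^ 4) := by
  induction s using Finset.induction_on with
  | empty => simp [E_zero]
  | insert j s hj ih =>
    obtain ⟨h1, h2, h4⟩ := ih
    simp only [Finset.sum_insert hj]
    set X : (J → Ω) → ℝ := fun x => ∑ i ∈ s, ξ i (x i) with hX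
    have hinv : ∀ x ω, X (update x j ω) = X x := by
      intro x ω
      simp only [hX]
      refine Finset.sum_congr rfl fun i hi => ?_
      rw [update_of_ne (by rintro rfl; exact hj hi)]
    have hI : ∀ a b : ℕ, E (fun x : J → Ω => X x ^ a * ξ j (x j) ^ b) =
        E (fun x => X x ^ a) * E (fun ω => ξ j ω ^ b) := fun a b =>
      E_indep j (fun x => X x ^ a) (fun ω => ξ j ω ^ b) (fun x ω => by simp only [hinv])
    have hc : ∀ b : ℕ, E (fun x : J → Ω => ξ j (x j) ^ b) = E (fun ω => ξ j ω ^ b) :=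
      fun b => E_coord j (fun ω => ξ j ω ^ b)
    have h0' : E (fun ω => ξ j ω ^ 1) = 0 := by simpa using h0 j
    have h1' : E (fun x => X x ^ 1) = 0 := by simpa using h1
    refine ⟨?_, ?_, ?_⟩
    · rw [E_add (fun x : J → Ω => ξ j (x j)) X, E_coord j (ξ j), h0, h1, add_zero]
    · have : ∀ x : J → Ω, (ξ j (x j) + X x) ^ 2 =
          ξ j (x j) ^ 2 + (2 * (X x ^ 1 * ξ j (x j) ^ 1) + X x ^ 2) := fun x => by ring
      change E (fun x : J → Ω => (ξ j (x j) + X x) ^ 2) = _
      change E (fun x : J → Ω => (X x) ^ 2) = _ at h2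
      simp only [this]
      rw [E_add, E_add, E_const_mul, hI, hc, h0', h2]
      ring
    · have : ∀ x : J → Ω, (ξ j (x j) + X x) ^ 4 =
          ξ j (x j) ^ 4 + (4 * (X x ^ 1 * ξ j (x j) ^ 3) + (6 * (X x ^ 2 * ξ j (x j) ^ 2) +
            (4 * (X x ^ 3 * ξ j (x j) ^ 1) + X x ^ 4))) := fun x => by ring
      change E (fun x : J → Ω => (ξ j (x j) + X x) ^ 4) ≤ _
      change E (fun x : J → Ω => (X x) ^ 2) = _ at h2
      change E (fun x : J → Ω => (X x) ^ 4) ≤ _ at h4
      simp only [this]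
      rw [E_add, E_add, E_add, E_add, E_const_mul, E_const_mul, E_const_mul, hI, hI, hI, hc, h0',
        h1', h2]
      have : 0 ≤ E (fun ω => ξ j ω ^ 2) := E_nonneg fun _ => sq_nonneg _
      nlinarith [sq_nonneg (E (fun ω => ξ j ω ^ 2))]

end Pi

/-! ### Conditional averages -/

section Cond
variable {Ω K : Type} [Fintype Ω]

open Classical in
/-- indicator of a proposition -/
noncomputable def ind (p : Prop) : ℝ := if p then 1 else 0

lemma ind_pos {p : Prop} (h : p) : ind p = 1 := by simp [ind, h]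
lemma ind_neg {p : Prop} (h : ¬ p) : ind p = 0 := by simp [ind, h]
lemma ind_nonneg (p : Prop) : 0 ≤ ind p := by unfold ind; split_ifs <;> norm_num
lemma ind_le_one (p : Prop) : ind p ≤ 1 := by unfold ind; split_ifs <;> norm_num
lemma ind_congr {p q : Prop} (h : p ↔ q) : ind p = ind q := by rw [propext h]

/-- a function of a label is a finite combination of indicators -/
lemma comp_eq_sum_ind [DecidableEq K] (G : Ω → K) (φ : K → ℝ) (x : Ω) :
    φ (G x) = ∑ a ∈ Finset.univ.image G, φ a * ind (G x = a) := by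
  rw [Finset.sum_eq_single (G x)]
  · rw [ind_pos rfl, mul_one]
  · intro b _ hb
    rw [ind_neg (fun h => hb h.symm), mul_zero]
  · intro h
    exact absurd (Finset.mem_image_of_mem G (Finset.mem_univ x)) h

/-- conditional mean of `w` given the label `G` -/
noncomputable def cmean (G : Ω → K) (w : Ω → ℝ) (a : K) : ℝ :=
  E (fun x => w x * ind (G x = a)) / E (fun x => ind (G x = a))

lemma cmean_mul (G : Ω → K) (w : Ω → ℝ) (a : K) :
    cmean G w a * E (fun x => ind (G x = a)) = E (fun x => w x * ind (G x = a)) := by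
  unfold cmean
  by_cases h : E (fun x => ind (G x = a)) = 0
  · rw [h, mul_zero]
    have := eq_zero_of_E_eq_zero (fun x => ind_nonneg (G x = a)) h
    simp only [this, mul_zero, E_zero]
  · field_simp

lemma E_cmean (G : Ω → K) (w : Ω → ℝ) (φ : K → ℝ) :
    E (fun x => w x * φ (G x)) = E (fun x => cmean G w (G x) * φ (G x)) := by
  classical
  have h1 : ∀ x, w x * φ (G x) = ∑ a ∈ Finset.univ.image G, φ a * (w x * ind (G x = a)) := by
    intro x
    rw [comp_eq_sum_ind G φ x, Finset.mul_sum]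
    exact Finset.sum_congr rfl fun a _ => by ring
  have h2 : ∀ x, cmean G w (G x) * φ (G x) =
      ∑ a ∈ Finset.univ.image G, (cmean G w a * φ a) * ind (G x = a) :=
    fun x => comp_eq_sum_ind G (fun a => cmean G w a * φ a) x
  simp only [h1, h2, E_sum, E_const_mul]
  refine Finset.sum_congr rfl fun a _ => ?_
  rw [← cmean_mul]; ring

/-- least squares -/
lemma cmean_sq_ge (G : Ω → K) (w : Ω → ℝ) (u : K → ℝ) :
    E (fun x => w x ^ 2) - E (fun x => (w x - u (G x)) ^ 2) ≤ E (fun x => cmean G w (G x) ^ 2) := by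
  have h1 : ∀ x, (w x - u (G x)) ^ 2 = w x ^ 2 - 2 * (w x * u (G x)) + u (G x) ^ 2 :=
    fun x => by ring
  have h2 : ∀ x, (cmean G w (G x) - u (G x)) ^ 2 =
      cmean G w (G x) ^ 2 - 2 * (cmean G w (G x) * u (G x)) + u (G x) ^ 2 := fun x => by ring
  have h3 : 0 ≤ E (fun x => (cmean G w (G x) - u (G x)) ^ 2) := E_nonneg fun _ => sq_nonneg _
  simp only [h1, h2, E_add, E_sub, E_const_mul] at h3 ⊢
  rw [E_cmean G w u]
  linarith

end Cond

/-! ### Degree on the cube -/

/-- sign of a bit -/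
def sg (b : Bool) : ℝ := if b then 1 else -1

lemma sg_mul_self (b : Bool) : sg b * sg b = 1 := by cases b <;> simp [sg]
lemma sg_not (b : Bool) : sg (!b) = - sg b := by cases b <;> simp [sg]

/-- functions of degree at most `d` -/
def LowDeg (ι : Type) (d : ℕ) : Submodule ℝ ((ι → Bool) → ℝ) :=
  Submodule.span ℝ {f | ∃ S : Finset ι, S.card ≤ d ∧ f = fun x => ∏ i ∈ S, sg (x i)}

section Deg
variable {ι κ : Type}

lemma LowDeg_mono {a b : ℕ} (h : a ≤ b) {f : (ι → Bool) → ℝ} (hf : f ∈ LowDeg ι a) :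
    f ∈ LowDeg ι b := by
  refine Submodule.span_mono ?_ hf
  rintro g ⟨S, hS, rfl⟩
  exact ⟨S, hS.trans h, rfl⟩

lemma chi_mem (S : Finset ι) : (fun x : ι → Bool => ∏ i ∈ S, sg (x i)) ∈ LowDeg ι S.card :=
  Submodule.subset_span ⟨S, le_rfl, rfl⟩

lemma const_mem (d : ℕ) (c : ℝ) : (fun _ : ι → Bool => c) ∈ LowDeg ι d := by
  have h := (LowDeg ι d).smul_mem c (LowDeg_mono (Nat.zero_le d) (chi_mem (∅ : Finset ι)))
  convert h using 1
  funext x; simp

lemma add_mem' {d : ℕ} {f g : (ι → Bool) → ℝ} (hf : f ∈ LowDeg ι d) (hg : g ∈ LowDeg ι d) :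
    (fun x => f x + g x) ∈ LowDeg ι d := (LowDeg ι d).add_mem hf hg

lemma sub_mem' {d : ℕ} {f g : (ι → Bool) → ℝ} (hf : f ∈ LowDeg ι d) (hg : g ∈ LowDeg ι d) :
    (fun x => f x - g x) ∈ LowDeg ι d := (LowDeg ι d).sub_mem hf hg

lemma cmul_mem {d : ℕ} (c : ℝ) {f : (ι → Bool) → ℝ} (hf : f ∈ LowDeg ι d) :
    (fun x => c * f x) ∈ LowDeg ι d := (LowDeg ι d).smul_mem c hf

lemma sum_mem' {γ : Type} {d : ℕ} (s : Finset γ) {f : γ → (ι → Bool) → ℝ}
    (hf : ∀ i ∈ s, f i ∈ LowDeg ι d) : (fun x => ∑ i ∈ s, f i x) ∈ LowDeg ι d := by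
  have := (LowDeg ι d).sum_mem hf
  convert this using 1
  funext x; simp

lemma sg_mul_mem {d : ℕ} (i : ι) {f : (ι → Bool) → ℝ} (hf : f ∈ LowDeg ι d) :
    (fun x => sg (x i) * f x) ∈ LowDeg ι (d + 1) := by
  classical
  induction hf using Submodule.span_induction with
  | mem g hg =>
    obtain ⟨S, hS, rfl⟩ := hg
    by_cases hi : i ∈ S
    · refine Submodule.subset_span ⟨S.erase i, ?_, ?_⟩
      · have := Finset.card_erase_le (s := S) (a := i); omega
      · funext x
        beta_reduce
        rw [← Finset.mul_prod_erase S (fun i => sg (x i)) hi, ← mul_assoc, sg_mul_self, one_mul]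
    · refine Submodule.subset_span ⟨insert i S, ?_, ?_⟩
      · rw [Finset.card_insert_of_notMem hi]; omega
      · funext x
        rw [Finset.prod_insert hi]
  | zero => simpa using const_mem (ι := ι) (d + 1) 0
  | add f g _ _ hf hg => simpa [mul_add] using add_mem' hf hg
  | smul c f _ hf =>
    have := cmul_mem c hf
    convert this using 2
    simp; ring

lemma chi_mul_mem {d : ℕ} (S : Finset ι) {f : (ι → Bool) → ℝ} (hf : f ∈ LowDeg ι d) :
    (fun x => (∏ i ∈ S, sg (x i)) * f x) ∈ LowDeg ι (S.card + d) := by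
  classical
  induction S using Finset.induction_on with
  | empty => simpa using hf
  | insert i S hi ih =>
    have := sg_mul_mem i ih
    rw [Finset.card_insert_of_notMem hi]
    convert this using 2
    · omega
    · rw [Finset.prod_insert hi, mul_assoc]

lemma mul_mem' {a b : ℕ} {f g : (ι → Bool) → ℝ} (hf : f ∈ LowDeg ι a) (hg : g ∈ LowDeg ι b) :
    (fun x => f x * g x) ∈ LowDeg ι (a + b) := by
  induction hf using Submodule.span_induction with
  | mem f hf =>
    obtain ⟨S, hS, rfl⟩ := hf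
    exact LowDeg_mono (by omega) (chi_mul_mem S hg)
  | zero => simpa using const_mem (ι := ι) (a + b) 0
  | add f g _ _ hf hg => simpa [add_mul] using add_mem' hf hg
  | smul c f _ hf =>
    have := cmul_mem c hf
    convert this using 2
    simp; ring

lemma prod_mem' {γ : Type} (s : Finset γ) (d : γ → ℕ) {f : γ → (ι → Bool) → ℝ}
    (hf : ∀ i ∈ s, f i ∈ LowDeg ι (d i)) :
    (fun x => ∏ i ∈ s, f i x) ∈ LowDeg ι (∑ i ∈ s, d i) := by
  classical
  induction s using Finset.induction_on with
  | empty => simpa using const_mem (ι := ι) 0 1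
  | insert i s hi ih =>
    simp only [Finset.prod_insert hi, Finset.sum_insert hi]
    exact mul_mem' (hf i (Finset.mem_insert_self _ _))
      (ih fun j hj => hf j (Finset.mem_insert_of_mem hj))

lemma pow_mem' {d : ℕ} {f : (ι → Bool) → ℝ} (hf : f ∈ LowDeg ι d) (n : ℕ) :
    (fun x => f x ^ n) ∈ LowDeg ι (n * d) := by
  have := prod_mem' (Finset.range n) (fun _ => d) (f := fun _ => f) (fun _ _ => hf)
  simpa using this

lemma sg_mem (i : ι) : (fun x : ι → Bool => sg (x i)) ∈ LowDeg ι 1 := by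
  simpa using chi_mem ({i} : Finset ι)

/-- substitution of maps whose coordinates have degree at most one -/
lemma subst_mem {d : ℕ} (T : (κ → Bool) → (ι → Bool))
    (hT : ∀ i, (fun x => sg (T x i)) ∈ LowDeg κ 1) {f : (ι → Bool) → ℝ} (hf : f ∈ LowDeg ι d) :
    (fun x => f (T x)) ∈ LowDeg κ d := by
  induction hf using Submodule.span_induction with
  | mem f hf =>
    obtain ⟨S, hS, rfl⟩ := hf
    have := prod_mem' S (fun _ => 1) (f := fun i x => sg (T x i)) (fun i _ => hT i)
    exact LowDeg_mono (by simpa using hS) this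
  | zero => simpa using const_mem (ι := κ) d 0
  | add f g _ _ hf hg => simpa using add_mem' hf hg
  | smul c f _ hf => simpa using cmul_mem c hf

lemma reindex_mem {d : ℕ} (e : ι → κ) {f : (ι → Bool) → ℝ} (hf : f ∈ LowDeg ι d) :
    (fun x : κ → Bool => f (fun i => x (e i))) ∈ LowDeg κ d :=
  subst_mem (fun x i => x (e i)) (fun i => sg_mem (e i)) hf

lemma not_mem' {d : ℕ} {f : (ι → Bool) → ℝ} (hf : f ∈ LowDeg ι d) :
    (fun x : ι → Bool => f (fun i => !x i)) ∈ LowDeg ι d := by
  refine subst_mem (fun x i => !x i) (fun i => ?_) hf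
  have := cmul_mem (-1) (sg_mem (ι := ι) i)
  simpa [sg_not] using this

/-- high Fourier coefficients of a low-degree function vanish -/
lemma orth_of_mem [Fintype ι] [DecidableEq ι] {d : ℕ} {f : (ι → Bool) → ℝ} (hf : f ∈ LowDeg ι d)
    (S : Finset ι) (hS : d < S.card) : E (fun x => f x * ∏ i ∈ S, sg (x i)) = 0 := by
  induction hf using Submodule.span_induction with
  | mem f hf =>
    obtain ⟨T, hT, rfl⟩ := hf
    obtain ⟨i, hiS, hiT⟩ : ∃ i ∈ S, i ∉ T := by
      by_contra h
      push Not at h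
      have := Finset.card_le_card (show S ⊆ T from h)
      omega
    have h1 : ∀ x : ι → Bool, (∏ j ∈ T, sg (x j)) * ∏ j ∈ S, sg (x j) =
        ((∏ j ∈ T, sg (x j)) * ∏ j ∈ S.erase i, sg (x j)) * sg (x i) := by
      intro x
      rw [← Finset.mul_prod_erase S (fun j => sg (x j)) hiS]; ring
    simp only [h1]
    rw [E_indep i (fun x : ι → Bool => (∏ j ∈ T, sg (x j)) * ∏ j ∈ S.erase i, sg (x j)) sg]
    · have : E sg = 0 := by simp [E, sg]
      rw [this, mul_zero]
    · intro x ω
      congr 1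
      · refine Finset.prod_congr rfl fun j hj => ?_
        rw [update_of_ne (by rintro rfl; exact hiT hj)]
      · refine Finset.prod_congr rfl fun j hj => ?_
        rw [update_of_ne (Finset.ne_of_mem_erase hj)]
  | zero => simp [E_zero]
  | add f g _ _ hf hg =>
    simp only [Pi.add_apply, add_mul, E_add, hf, hg, add_zero]
  | smul c f _ hf =>
    simp only [Pi.smul_apply, smul_eq_mul, mul_assoc, E_const_mul, hf, mul_zero]

end Deg

end Crest.Agent.R63
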