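import Crest.Agent.R63.Basic

/-!
Row 63 (S0085).  Coarse classes of a real variable with bounded kurtosis, and the correlation of
the fifth Chebyshev polynomial of a sum of signs.
-/

set_option autoImplicit false

namespace Crest.Agent.R63

open Finset Function

lemma sum_ind_mem {α : Type} [DecidableEq α] (s : Finset α) (b : α) :
    ∑ i ∈ s, ind (b = i) = ind (b ∈ s) := by
  by_cases h : b ∈ s
  · rw [ind_pos h, Finset.sum_eq_single b]
    · exact ind_pos rfl
    · intro c _ hc; exact ind_neg fun h => hc h.symm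
    · intro h'; exact absurd h h'
  · rw [ind_neg h]
    exact Finset.sum_eq_zero fun i hi => ind_neg fun h' => h (h' ▸ hi)

/-- Coarse classes: boundedly many, each of probability bounded below, and with a small sum of
conditional second moments around suitable centres. -/
lemma classes (ε : ℝ) (hε : 0 < ε) : ∃ (k0 : ℕ) (p0 : ℝ), 0 < p0 ∧ p0 ≤ 1 ∧
    ∀ (Ω : Type) [Fintype Ω] [Nonempty Ω] (w : Ω → ℝ) (σ : ℝ), 0 < σ →
      E (fun x => w x ^ 2) = σ ^ 2 → E (fun x => w x ^ 4) ≤ 4 * σ ^ 4 →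
      ∃ (K : Type) (_ : Fintype K) (_ : DecidableEq K) (cls : ℝ → K) (z t : K → ℝ),
        Fintype.card K ≤ k0 ∧ (∀ a, p0 ≤ E (fun x => ind (cls (w x) = a))) ∧
        (∀ a, E (fun x => (w x - z a) ^ 2 * ind (cls (w x) = a)) ≤
          t a * E (fun x => ind (cls (w x) = a))) ∧
        ∑ a, t a ≤ ε * σ ^ 2 := by
  obtain ⟨u, hu⟩ := exists_nat_gt (6 / ε)
  obtain ⟨R, hR⟩ := exists_nat_gt (2 + 256 * u / ε)
  have hu0 : (0 : ℝ) < u := lt_trans (by positivity) hu
  have hR2 : (2 : ℝ) < R := lt_of_le_of_lt (le_add_of_nonneg_right (by positivity)) hR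
  have hR0 : (0 : ℝ) < R := by linarith
  have hu1 : (1 : ℝ) ≤ u := by
    have : 0 < u := by exact_mod_cast hu0
    exact_mod_cast this
  set N : ℕ := R * u with hN
  have hNr : (N : ℝ) = R * u := by rw [hN]; push_cast; ring
  have hN0 : (0 : ℝ) < N := by rw [hNr]; positivity
  have hN1 : (1 : ℝ) ≤ N := by rw [hNr]; nlinarith
  set p0 : ℝ := min (ε / (128 * R ^ 5 * u ^ 2)) (3 / (16 * N)) with hp0
  have hp00 : 0 < p0 := lt_min (by positivity) (by positivity)
  refine ⟨2 * R * N, p0, hp00, ?_, ?_⟩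
  · refine (min_le_right _ _).trans ?_
    rw [div_le_one (by positivity)]; linarith
  intro Ω _ _ w σ hσ h2 h4
  classical
  let bin : ℝ → ℤ := fun t => ⌊t * N / σ⌋
  let p : ℤ → ℝ := fun i => E (fun x => ind (bin (w x) = i))
  let I : Finset ℤ := Finset.Ico (-(R * N : ℤ)) (R * N)
  let I0 : Finset ℤ := Finset.Ico (-(2 * N : ℤ)) (2 * N)
  let Hs : Finset ℤ := I.filter (fun i => p0 ≤ p i)
  -- location of a point from its bin
  have hbin1 : ∀ t, (bin t : ℝ) * σ / N ≤ t := by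
    intro t
    have := Int.floor_le (t * N / σ)
    rw [le_div_iff₀ hσ] at this
    rw [div_le_iff₀ hN0]; exact this
  have hbin2 : ∀ t, t < (bin t : ℝ) * σ / N + σ / N := by
    intro t
    have := Int.lt_floor_add_one (t * N / σ)
    rw [div_lt_iff₀ hσ] at this
    rw [← add_div, lt_div_iff₀ hN0]; linarith
  have hout : ∀ (A : ℕ) (t : ℝ), bin t ∉ Finset.Ico (-(A * N : ℤ)) (A * N) → (A * σ) ^ 2 ≤ t ^ 2 := by
    intro A t ht
    rw [Finset.mem_Ico, not_and_or, not_le, not_lt] at ht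
    have hA : (0 : ℝ) ≤ A * σ := by positivity
    rcases ht with ht | ht
    · have h5 : bin t + 1 ≤ -(A * N : ℤ) := ht
      have h6 : (bin t : ℝ) + 1 ≤ -(A * N : ℝ) := by exact_mod_cast h5
      have h7 := hbin2 t
      have h8 : ((bin t : ℝ) + 1) * σ / N ≤ -(A * N : ℝ) * σ / N := by gcongr
      have h9 : -(A * N : ℝ) * σ / N = -(A * σ) := by field_simp
      have h10 : t ≤ -(A * σ) := by
        rw [add_mul, add_div, one_mul] at h8; linarith
      nlinarith
    · have h6 : (A * N : ℝ) ≤ (bin t : ℝ) := by exact_mod_cast ht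
      have h7 := hbin1 t
      have h8 : (A * N : ℝ) * σ / N ≤ (bin t : ℝ) * σ / N := by gcongr
      have h9 : (A * N : ℝ) * σ / N = A * σ := by field_simp
      have h10 : A * σ ≤ t := by linarith
      nlinarith
  have hin : ∀ (A : ℕ) (t : ℝ), bin t ∈ Finset.Ico (-(A * N : ℤ)) (A * N) → |t| ≤ A * σ := by
    intro A t ht
    rw [Finset.mem_Ico] at ht
    have h5 : bin t + 1 ≤ (A * N : ℤ) := ht.2
    have h6 : (bin t : ℝ) + 1 ≤ (A * N : ℝ) := by exact_mod_cast h5
    have h6' : -(A * N : ℝ) ≤ (bin t : ℝ) := by exact_mod_cast ht.1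
    have h8 : ((bin t : ℝ) + 1) * σ / N ≤ (A * N : ℝ) * σ / N := by gcongr
    have h8' : -(A * N : ℝ) * σ / N ≤ (bin t : ℝ) * σ / N := by gcongr
    have h9 : (A * N : ℝ) * σ / N = A * σ := by field_simp
    have h9' : -(A * N : ℝ) * σ / N = -(A * σ) := by field_simp
    have h7 := hbin1 t
    have h7' := hbin2 t
    rw [add_mul, add_div, one_mul] at h8
    rw [abs_le]; constructor <;> linarith
  -- a heavy central bin
  have hsum : ∀ s : Finset ℤ, ∑ i ∈ s, p i = E (fun x => ind (bin (w x) ∈ s)) := by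
    intro s
    simp only [p, ← E_sum, sum_ind_mem]
  have hI0 : 3 / 4 ≤ ∑ i ∈ I0, p i := by
    rw [hsum]
    have : ∀ x, 1 - w x ^ 2 / (4 * σ ^ 2) ≤ ind (bin (w x) ∈ I0) := by
      intro x
      by_cases hx : bin (w x) ∈ I0
      · rw [ind_pos hx]; have : 0 ≤ w x ^ 2 / (4 * σ ^ 2) := by positivity
        linarith
      · rw [ind_neg hx]
        have := hout 2 (w x) (by simpa [I0] using hx)
        have h5 : 1 ≤ w x ^ 2 / (4 * σ ^ 2) := by
          rw [le_div_iff₀ (by positivity)]; push_cast at this; nlinarith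
        linarith
    have := E_mono this
    rw [E_sub, E_const, E_div_const, h2] at this
    have h5 : σ ^ 2 / (4 * σ ^ 2) = 1 / 4 := by field_simp
    linarith
  obtain ⟨a0, ha0, hpa0⟩ : ∃ a0 ∈ I0, 3 / (16 * N) ≤ p a0 := by
    by_contra hcon
    push Not at hcon
    have hne : I0.Nonempty := ⟨0, by
      have : (0 : ℤ) < N := by exact_mod_cast hN0
      simp only [I0, Finset.mem_Ico]; omega⟩
    have := Finset.sum_lt_sum_of_nonempty hne hcon
    have hcard : (I0.card : ℝ) = 4 * N := by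
      have : I0.card = 4 * N := by
        simp only [I0, Int.card_Ico]; omega
      rw [this]; push_cast; ring
    rw [Finset.sum_const, nsmul_eq_mul, hcard] at this
    have h5 : 4 * (N : ℝ) * (3 / (16 * N)) = 3 / 4 := by field_simp; norm_num
    linarith
  have hR2' : 2 ≤ R := by
    have : 2 < R := by exact_mod_cast hR2
    omega
  have ha0H : a0 ∈ Hs := by
    simp only [Hs, I, Finset.mem_filter, Finset.mem_Ico]
    simp only [I0, Finset.mem_Ico] at ha0
    have : (2 * N : ℤ) ≤ R * N := by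
      have : (2 : ℤ) ≤ R := by exact_mod_cast hR2'
      nlinarith [Int.natCast_nonneg N]
    exact ⟨⟨by omega, by omega⟩, (min_le_right _ _).trans hpa0⟩
  let cls : ℝ → Hs := fun t => if h : bin t ∈ Hs then ⟨bin t, h⟩ else ⟨a0, ha0H⟩
  have hcls : ∀ (a : Hs) t, bin t = a → cls t = a := by
    intro a t h
    have h' : bin t ∈ Hs := h ▸ a.2
    simp only [cls, dif_pos h']
    exact Subtype.ext h
  have hP : ∀ a : Hs, p a ≤ E (fun x => ind (cls (w x) = a)) := by
    intro a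
    refine E_mono fun x => ?_
    by_cases hx : bin (w x) = a
    · rw [ind_pos hx, ind_pos (hcls a _ hx)]
    · rw [ind_neg hx]; exact ind_nonneg _
  set X : ℝ := 8 * R ^ 3 * N * p0 + 16 / R ^ 2 with hX
  have hX0 : 0 ≤ X := by positivity
  have hcardI : I.card = 2 * R * N := by
    simp only [I, Int.card_Ico]
    have : (R * N - -(R * N) : ℤ) = ((2 * R * N : ℕ) : ℤ) := by push_cast; ring
    rw [this, Int.toNat_natCast]
  have hcardH : Hs.card ≤ 2 * R * N := hcardI ▸ Finset.card_filter_le _ _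
  refine ⟨Hs, inferInstance, inferInstance, cls, fun a => (a : ℤ) * σ / N,
    fun a => σ ^ 2 / N ^ 2 + (if a = ⟨a0, ha0H⟩ then X * σ ^ 2 * (16 * N / 3) else 0), ?_, ?_, ?_, ?_⟩
  · simpa using hcardH
  · intro a
    exact (Finset.mem_filter.mp a.2).2.trans (hP a)
  · intro a
    beta_reduce
    have hnear : ∀ t, bin t = a → (t - (a : ℤ) * σ / N) ^ 2 ≤ σ ^ 2 / N ^ 2 := by
      intro t h
      have h5 := hbin1 t
      have h6 := hbin2 t
      rw [h] at h5 h6
      rw [← div_pow]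
      exact pow_le_pow_left₀ (by linarith) (by linarith) 2
    by_cases ha : a = ⟨a0, ha0H⟩
    · have ha' : (a : ℤ) = a0 := by rw [ha]
      have hz : |((a : ℤ) : ℝ) * σ / N| ≤ 2 * σ := by
        simp only [I0, Finset.mem_Ico] at ha0
        have h5 : -(2 * N : ℝ) ≤ a0 := by exact_mod_cast ha0.1
        have h6 : (a0 : ℝ) ≤ 2 * N := by exact_mod_cast ha0.2.le
        rw [ha', abs_div, abs_mul, abs_of_pos hσ, abs_of_pos hN0, div_le_iff₀ hN0]
        have : |(a0 : ℝ)| ≤ 2 * N := abs_le.mpr ⟨h5, h6⟩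
        nlinarith
      have hpt : ∀ x, (w x - (a : ℤ) * σ / N) ^ 2 * ind (cls (w x) = a) ≤
          σ ^ 2 / N ^ 2 * ind (cls (w x) = a) +
            (4 * R ^ 2 * σ ^ 2 * ind (bin (w x) ∈ I \ Hs) + 4 / (R ^ 2 * σ ^ 2) * w x ^ 4) := by
        intro x
        have hi0 := ind_nonneg (cls (w x) = a)
        have hi1 := ind_le_one (cls (w x) = a)
        have hj0 := ind_nonneg (bin (w x) ∈ I \ Hs)
        set zz : ℝ := (a : ℤ) * σ / N with hzz
        have hz' := abs_le.mp hz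
        by_cases hx : bin (w x) ∈ Hs
        · by_cases hx' : cls (w x) = a
          · have : bin (w x) = a := by
              simp only [cls, dif_pos hx] at hx'
              exact congrArg Subtype.val hx'
            have := mul_le_mul_of_nonneg_right (hnear _ this) hi0
            have h5 : 0 ≤ 4 * R ^ 2 * σ ^ 2 * ind (bin (w x) ∈ I \ Hs) +
              4 / (R ^ 2 * σ ^ 2) * w x ^ 4 := by positivity
            linarith
          · rw [ind_neg hx']
            have h5 : 0 ≤ 4 * R ^ 2 * σ ^ 2 * ind (bin (w x) ∈ I \ Hs) +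
              4 / (R ^ 2 * σ ^ 2) * w x ^ 4 := by positivity
            linarith
        · have h5 : (w x - zz) ^ 2 * ind (cls (w x) = a) ≤ (w x - zz) ^ 2 :=
            mul_le_of_le_one_right (sq_nonneg _) hi1
          have h6 : 0 ≤ σ ^ 2 / N ^ 2 * ind (cls (w x) = a) := by positivity
          have hRσ : 2 * σ ≤ R * σ := by nlinarith
          by_cases hx' : bin (w x) ∈ I
          · rw [ind_pos (Finset.mem_sdiff.mpr ⟨hx', hx⟩)]
            have h7 := abs_le.mp (hin R (w x) hx')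
            have h8 : (w x - zz) ^ 2 ≤ (2 * (R * σ)) ^ 2 :=
              sq_le_sq' (by linarith) (by linarith)
            have h9 : 0 ≤ 4 / (R ^ 2 * σ ^ 2) * w x ^ 4 := by positivity
            nlinarith
          · have h7 := hout R (w x) hx'
            have h8 : (w x - zz) ^ 2 ≤ 4 * w x ^ 2 := by
              have : zz ^ 2 ≤ (R * σ) ^ 2 := sq_le_sq' (by linarith) (by linarith)
              nlinarith [sq_nonneg (w x + zz)]
            have h9 : 4 * w x ^ 2 ≤ 4 / (R ^ 2 * σ ^ 2) * w x ^ 4 := by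
              rw [div_mul_eq_mul_div, le_div_iff₀ (by positivity)]
              nlinarith [mul_le_mul_of_nonneg_left h7 (sq_nonneg (w x))]
            have h10 : 0 ≤ 4 * R ^ 2 * σ ^ 2 * ind (bin (w x) ∈ I \ Hs) := by positivity
            linarith
      have h5 := E_mono hpt
      rw [E_add, E_add, E_const_mul, E_const_mul, E_const_mul, ← hsum] at h5
      have h6 : ∑ i ∈ I \ Hs, p i ≤ 2 * R * N * p0 := by
        have h7 : ∑ i ∈ I \ Hs, p i ≤ (I \ Hs).card • p0 := by
          refine Finset.sum_le_card_nsmul _ _ _ fun i hi => ?_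
          rw [Finset.mem_sdiff] at hi
          by_contra hcon
          exact hi.2 (Finset.mem_filter.mpr ⟨hi.1, (not_le.mp hcon).le⟩)
        have h8 : (I \ Hs).card ≤ 2 * R * N := hcardI ▸ Finset.card_le_card Finset.sdiff_subset
        have h9 : ((I \ Hs).card : ℝ) ≤ 2 * R * N := by exact_mod_cast h8
        rw [nsmul_eq_mul] at h7
        nlinarith
      have h7 : 4 / (R ^ 2 * σ ^ 2) * E (fun x => w x ^ 4) ≤ 16 / R ^ 2 * σ ^ 2 := by
        calc _ ≤ 4 / (R ^ 2 * σ ^ 2) * (4 * σ ^ 4) := by gcongr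
          _ = _ := by field_simp; norm_num
      have h8 : 4 * R ^ 2 * σ ^ 2 * ∑ i ∈ I \ Hs, p i ≤ 4 * R ^ 2 * σ ^ 2 * (2 * R * N * p0) := by
        gcongr
      have h9 : 3 / (16 * N) ≤ E (fun x => ind (cls (w x) = a)) := by
        refine le_trans ?_ (hP a)
        rw [ha']; exact hpa0
      have h10 : X * σ ^ 2 ≤ X * σ ^ 2 * (16 * N / 3) * E (fun x => ind (cls (w x) = a)) := by
        calc X * σ ^ 2 = X * σ ^ 2 * (16 * N / 3) * (3 / (16 * N)) := by field_simp
          _ ≤ _ := by gcongr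
      rw [if_pos ha, add_mul]
      have h11 : X * σ ^ 2 = 4 * R ^ 2 * σ ^ 2 * (2 * R * N * p0) + 16 / R ^ 2 * σ ^ 2 := by
        rw [hX]; ring
      linarith
    · rw [if_neg ha, add_zero, ← E_const_mul]
      refine E_mono fun x => ?_
      by_cases hx' : cls (w x) = a
      · have : bin (w x) = a := by
          by_cases hx : bin (w x) ∈ Hs
          · simp only [cls, dif_pos hx] at hx'
            exact congrArg Subtype.val hx'
          · simp only [cls, dif_neg hx] at hx'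
            exact absurd hx'.symm ha
        exact mul_le_mul_of_nonneg_right (hnear _ this) (ind_nonneg _)
      · rw [ind_neg hx', mul_zero, mul_zero]
  · rw [Finset.sum_add_distrib, Finset.sum_ite_eq', if_pos (Finset.mem_univ _), Finset.sum_const,
      nsmul_eq_mul, Finset.card_univ, Fintype.card_coe]
    have h5 : (Hs.card : ℝ) ≤ 2 * R * N := by exact_mod_cast hcardH
    have h6 : (Hs.card : ℝ) * (σ ^ 2 / N ^ 2) ≤ ε / 3 * σ ^ 2 := by
      calc _ ≤ 2 * R * N * (σ ^ 2 / N ^ 2) := by gcongr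
        _ = 2 / u * σ ^ 2 := by rw [hNr]; field_simp
        _ ≤ _ := by
          refine mul_le_mul_of_nonneg_right ?_ (sq_nonneg σ)
          rw [div_lt_iff₀ hε] at hu
          rw [div_le_div_iff₀ hu0 (by norm_num)]; linarith
    have h7 : X * (16 * N / 3) ≤ 2 * ε / 3 := by
      have h8 : 8 * R ^ 3 * N * p0 * (16 * N / 3) ≤ ε / 3 := by
        calc _ ≤ 8 * R ^ 3 * N * (ε / (128 * R ^ 5 * u ^ 2)) * (16 * N / 3) := by
              gcongr; exact min_le_left _ _
          _ = _ := by rw [hNr]; field_simp; norm_num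
      have h9 : 16 / R ^ 2 * (16 * N / 3) ≤ ε / 3 := by
        have h10 : 256 * u / ε < R := by linarith
        rw [div_lt_iff₀ hε] at h10
        calc (16 : ℝ) / R ^ 2 * (16 * N / 3) = 256 * (u : ℝ) / R / 3 := by
              rw [hNr]; field_simp; norm_num
          _ ≤ ε / 3 := by
            refine div_le_div_of_nonneg_right ?_ (by norm_num)
            rw [div_le_iff₀ hR0]; linarith
      rw [hX, add_mul]; linarith
    nlinarith [mul_le_mul_of_nonneg_right h7 (sq_nonneg σ)]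

/-- first absolute moment from bounded kurtosis -/
lemma E_abs_ge {Ω : Type} [Fintype Ω] (w : Ω → ℝ) (σ : ℝ) (hσ : 0 < σ)
    (h2 : E (fun x => w x ^ 2) = σ ^ 2) (h4 : E (fun x => w x ^ 4) ≤ 4 * σ ^ 4) :
    σ / 2 ≤ E (fun x => |w x|) := by
  have hpt : ∀ x, 3 / (4 * σ) * w x ^ 2 - 1 / (16 * σ ^ 3) * w x ^ 4 ≤ |w x| := by
    intro x
    obtain ⟨y, hy, hy'⟩ : ∃ y : ℝ, 0 ≤ y ∧ |w x| = y * σ := ⟨|w x| / σ, by positivity, by field_simp⟩
    have h5 : w x ^ 2 = (y * σ) ^ 2 := by rw [← hy', sq_abs]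
    have h6 : w x ^ 4 = (y * σ) ^ 4 := by
      rw [show w x ^ 4 = (w x ^ 2) ^ 2 by ring, h5]; ring
    rw [h5, h6, hy']
    have h7 : 3 / (4 * σ) * (y * σ) ^ 2 - 1 / (16 * σ ^ 3) * (y * σ) ^ 4 =
        y * σ - σ * y * ((y - 2) ^ 2 * (y + 4)) / 16 := by field_simp; ring
    rw [h7]
    have : 0 ≤ σ * y * ((y - 2) ^ 2 * (y + 4)) / 16 := by positivity
    linarith
  have h5 := E_mono hpt
  rw [E_sub, E_const_mul, E_const_mul, h2] at h5
  have h6 : 1 / (16 * σ ^ 3) * E (fun x => w x ^ 4) ≤ 1 / (16 * σ ^ 3) * (4 * σ ^ 4) := by gcongr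
  have h7 : 3 / (4 * σ) * σ ^ 2 - 1 / (16 * σ ^ 3) * (4 * σ ^ 4) = σ / 2 := by field_simp; norm_num
  linarith

/-- integer sign of a real number -/
noncomputable def sgnZ (t : ℝ) : ℤ := if 0 < t then 1 else if t < 0 then -1 else 0

lemma sgnZ_neg (t : ℝ) : sgnZ (-t) = - sgnZ t := by
  unfold sgnZ
  rcases lt_trichotomy t 0 with h | h | h
  · simp [h, h.not_gt]
  · simp [h]
  · simp [h, h.not_gt]

lemma mul_sgnZ (t : ℝ) : t * sgnZ t = |t| := by
  unfold sgnZ
  rcases lt_trichotomy t 0 with h | h | h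
  · simp [h, h.not_gt, abs_of_neg h]
  · simp [h]
  · simp [h, abs_of_pos h]

lemma abs_sgnZ_le (t : ℝ) : |(sgnZ t : ℝ)| ≤ 1 := by
  unfold sgnZ
  split_ifs <;> simp

/-- the fifth Chebyshev polynomial -/
def T5 (z : ℝ) : ℝ := 16 * z ^ 5 - 20 * z ^ 3 + 5 * z

lemma abs_T5_le {z : ℝ} (hz : |z| ≤ 1) : |T5 z| ≤ 1 := by
  have h1 : z ^ 2 ≤ 1 := by rw [← sq_abs]; exact pow_le_one₀ (abs_nonneg _) hz
  have h2 : 1 - T5 z ^ 2 = (1 - z ^ 2) * (16 * z ^ 4 - 12 * z ^ 2 + 1) ^ 2 := by unfold T5; ring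
  have h3 : 0 ≤ (1 - z ^ 2) * (16 * z ^ 4 - 12 * z ^ 2 + 1) ^ 2 :=
    mul_nonneg (by linarith) (sq_nonneg _)
  rw [← sq_le_one_iff_abs_le_one]; linarith

lemma abs_T5_sub {z : ℝ} (hz : |z| ≤ 1) : |T5 z - 5 * z| ≤ 20 * z ^ 2 := by
  have h1 : z ^ 2 ≤ 1 := by rw [← sq_abs]; exact pow_le_one₀ (abs_nonneg _) hz
  have h2 : T5 z - 5 * z = z ^ 2 * (z * (16 * z ^ 2 - 20)) := by unfold T5; ring
  rw [h2, abs_mul, abs_mul, abs_of_nonneg (sq_nonneg z), mul_comm]
  have h3 : |16 * z ^ 2 - 20| ≤ 20 := by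
    rw [abs_le]; constructor <;> nlinarith [sq_nonneg z]
  have h4 : |z| * |16 * z ^ 2 - 20| ≤ 1 * 20 := by gcongr
  nlinarith [sq_nonneg z]

/-- correlation of the sum with the Chebyshev polynomial of the normalised sum of signs -/
lemma main_corr {Ω : Type} [Fintype Ω] [Nonempty Ω] (w : Ω → ℝ) (σ : ℝ) (hσ : 0 < σ)
    (h1 : E w = 0) (h2 : E (fun x => w x ^ 2) = σ ^ 2) (h4 : E (fun x => w x ^ 4) ≤ 4 * σ ^ 4)
    (hs : E (fun x => (sgnZ (w x) : ℝ)) = 0) (n s : ℕ) (hn : n = s ^ 2) (hs0 : 0 < s) :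
    (5 / 2 - 40 / s) * σ ≤
      E (fun x : Fin n → Ω => (∑ j, w (x j)) * T5 ((∑ j, (sgnZ (w (x j)) : ℝ)) / n)) := by
  have hs' : (0 : ℝ) < s := by exact_mod_cast hs0
  have hnr : (n : ℝ) = s ^ 2 := by rw [hn]; push_cast; ring
  have hn0 : (0 : ℝ) < n := by rw [hnr]; positivity
  have hn1 : (1 : ℝ) ≤ n := by
    have : 0 < n := by exact_mod_cast hn0
    exact_mod_cast this
  have hmV := moments (J := Fin n) (fun _ => w) (fun _ => h1) Finset.univ
  have hmW := moments (J := Fin n) (fun _ x => (sgnZ (w x) : ℝ)) (fun _ => hs) Finset.univ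
  have hmS := moments (J := Fin n) (fun _ x => w x + (sgnZ (w x) : ℝ))
    (fun _ => by rw [E_add, h1, hs, add_zero]) Finset.univ
  simp only [Finset.sum_const, Finset.card_univ, nsmul_eq_mul, Fintype.card_fin] at hmV hmW hmS
  obtain ⟨-, hV2, -⟩ := hmV
  obtain ⟨-, hW2, hW4⟩ := hmW
  obtain ⟨-, hS2, -⟩ := hmS
  set V : (Fin n → Ω) → ℝ := fun x => ∑ j, w (x j) with hV
  set W : (Fin n → Ω) → ℝ := fun x => ∑ j, (sgnZ (w (x j)) : ℝ) with hW
  have hVW : E (fun x => V x * W x) = n * E (fun x => |w x|) := by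
    have h5 : ∀ x : Fin n → Ω, (∑ j, (w (x j) + (sgnZ (w (x j)) : ℝ))) ^ 2 =
        V x ^ 2 + (2 * (V x * W x) + W x ^ 2) := by
      intro x; rw [Finset.sum_add_distrib]; simp only [hV, hW]; ring
    have h6 : ∀ x, (w x + (sgnZ (w x) : ℝ)) ^ 2 =
        w x ^ 2 + (2 * |w x| + (sgnZ (w x) : ℝ) ^ 2) := by
      intro x; rw [← mul_sgnZ]; ring
    simp only [h5, h6, E_add, E_const_mul] at hS2
    change E (fun x => V x ^ 2) = _ at hV2
    change E (fun x => W x ^ 2) = _ at hW2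
    rw [hV2, hW2] at hS2
    linarith
  have hy2 : E (fun x => (sgnZ (w x) : ℝ) ^ 2) ≤ 1 := by
    rw [← E_const (α := Ω) 1]
    refine E_mono fun x => ?_
    rw [sq_le_one_iff_abs_le_one]; exact abs_sgnZ_le _
  have hy2' : 0 ≤ E (fun x => (sgnZ (w x) : ℝ) ^ 2) := E_nonneg fun _ => sq_nonneg _
  have hy4 : E (fun x => (sgnZ (w x) : ℝ) ^ 4) ≤ 1 := by
    rw [← E_const (α := Ω) 1]
    refine E_mono fun x => ?_
    have := (sq_le_one_iff_abs_le_one _).mpr (abs_sgnZ_le (w x))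
    nlinarith [sq_nonneg (sgnZ (w x) : ℝ)]
  have hW4' : E (fun x => W x ^ 4) ≤ 4 * n ^ 2 := by
    refine hW4.trans ?_
    have h5 : (n * E (fun x => (sgnZ (w x) : ℝ) ^ 2)) ^ 2 ≤ (n * 1) ^ 2 := by gcongr
    nlinarith
  have hpt : ∀ x, 5 / n * (V x * W x) -
      20 / n ^ 2 * (σ / (4 * s) * W x ^ 4 + s / σ * V x ^ 2) ≤ V x * T5 (W x / n) := by
    intro x
    have h5 : |W x / n| ≤ 1 := by
      rw [abs_div, abs_of_pos hn0, div_le_one hn0]
      refine (Finset.abs_sum_le_sum_abs _ _).trans ?_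
      have := Finset.sum_le_card_nsmul Finset.univ (fun j => |(sgnZ (w (x j)) : ℝ)|) 1
        (fun j _ => abs_sgnZ_le _)
      simpa using this
    have h6 := abs_T5_sub h5
    have h7 : |V x * (T5 (W x / n) - 5 * (W x / n))| ≤ |V x| * (20 * (W x / n) ^ 2) := by
      rw [abs_mul]; gcongr
    have h8 : |V x| * W x ^ 2 ≤ σ / (4 * s) * W x ^ 4 + s / σ * V x ^ 2 := by
      have h9 : σ / (4 * s) * W x ^ 4 + s / σ * |V x| ^ 2 - |V x| * W x ^ 2 =
          s / σ * (|V x| - σ / (2 * s) * W x ^ 2) ^ 2 := by field_simp; ring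
      have h10 : 0 ≤ s / σ * (|V x| - σ / (2 * s) * W x ^ 2) ^ 2 := by positivity
      rw [sq_abs] at h9
      linarith
    have h9 : |V x| * (20 * (W x / n) ^ 2) = 20 / n ^ 2 * (|V x| * W x ^ 2) := by field_simp
    have h10 : 20 / n ^ 2 * (|V x| * W x ^ 2) ≤
        20 / n ^ 2 * (σ / (4 * s) * W x ^ 4 + s / σ * V x ^ 2) := by gcongr
    have h11 := neg_abs_le (V x * (T5 (W x / n) - 5 * (W x / n)))
    have h12 : 5 / n * (V x * W x) = V x * (5 * (W x / n)) := by field_simp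
    nlinarith
  have h5 := E_mono hpt
  rw [E_sub, E_const_mul, E_const_mul, E_add, E_const_mul, E_const_mul, hVW] at h5
  change E (fun x => V x ^ 2) = _ at hV2
  rw [hV2, h2] at h5
  refine le_trans ?_ h5
  have h6 := E_abs_ge w σ hσ h2 h4
  have h7 : 20 / n ^ 2 * (σ / (4 * s) * E (fun x => W x ^ 4) + s / σ * (n * σ ^ 2)) ≤
      20 / n ^ 2 * (σ / (4 * s) * (4 * n ^ 2) + s / σ * (n * σ ^ 2)) := by gcongr
  have h8 : 20 / n ^ 2 * (σ / (4 * s) * (4 * n ^ 2) + s / σ * (n * σ ^ 2)) = 40 / s * σ := by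
    rw [hnr]; field_simp; norm_num
  have h9 : 5 / n * (n * E (fun x => |w x|)) = 5 * E (fun x => |w x|) := by field_simp
  linarith

end Crest.Agent.R63
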