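import Crest.Agent.R63.Basic

/-!
Row 63 (S0085).  Gadgets: labellings of a cube with low-degree level sets, together with the
conditional mean of the coordinate sum.  Products, coarsenings, symmetrisation and the passage
from average cost to worst-case cost.
-/

set_option autoImplicit false

namespace Crest.Agent.R63

open Finset Function

/-- the sum of the coordinates, read as signs -/
def Ssum {ι : Type} [Fintype ι] (x : ι → Bool) : ℝ := ∑ i, sg (x i)

/-- `G` labels the cube; the level set of `a` has degree at most `c a`; `v` is the conditional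
mean of the coordinate sum. -/
structure Gad {ι K : Type} [Fintype ι] [DecidableEq ι] (G : (ι → Bool) → K) (v : K → ℝ)
    (c : K → ℕ) : Prop where
  deg : ∀ a, (fun x => ind (G x = a)) ∈ LowDeg ι (c a)
  mean : ∀ φ : K → ℝ, E (fun x => Ssum x * φ (G x)) = E (fun x => v (G x) * φ (G x))

section
variable {ι K : Type} [Fintype ι] [DecidableEq ι]

lemma E_Ssum : E (Ssum : (ι → Bool) → ℝ) = 0 := by
  unfold Ssum
  rw [E_sum]
  refine Finset.sum_eq_zero fun i _ => ?_
  rw [E_coord i sg]
  simp [E, sg]

lemma Gad.E_v {G : (ι → Bool) → K} {v : K → ℝ} {c : K → ℕ} (h : Gad G v c) :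
    E (fun x => v (G x)) = 0 := by
  have := h.mean (fun _ => 1)
  simp only [mul_one] at this
  rw [← this]; exact E_Ssum

lemma Gad.comp_mem {G : (ι → Bool) → K} {v : K → ℝ} {d : ℕ} (h : Gad G v (fun _ => d))
    (φ : K → ℝ) : (fun x => φ (G x)) ∈ LowDeg ι d := by
  classical
  have : (fun x => φ (G x)) = fun x => ∑ a ∈ Finset.univ.image G, φ a * ind (G x = a) :=
    funext fun x => comp_eq_sum_ind G φ x
  rw [this]
  exact sum_mem' _ fun a _ => cmul_mem _ (h.deg a)

/-- coarsening a labelling -/
lemma Gad.coarsen {K' : Type} {G : (ι → Bool) → K} {v : K → ℝ} {c : K → ℕ} (h : Gad G v c)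
    (H : K → K') (c' : K' → ℕ) (hdeg : ∀ a, (fun x => ind (H (G x) = a)) ∈ LowDeg ι (c' a)) :
    Gad (fun x => H (G x)) (cmean (fun x => H (G x)) (fun x => v (G x))) c' where
  deg := hdeg
  mean φ := by
    rw [h.mean (fun a => φ (H a))]
    exact E_cmean (fun x => H (G x)) (fun x => v (G x)) φ

/-- the negated gadget -/
lemma Gad.neg {G : (ι → Bool) → K} {v : K → ℝ} {c : K → ℕ} (h : Gad G v c) :
    Gad (fun x => G (fun i => !x i)) (fun a => - v a) c where
  deg a := not_mem' (h.deg a)
  mean φ := by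
    let e : (ι → Bool) ≃ (ι → Bool) :=
      { toFun := fun x i => !x i, invFun := fun x i => !x i,
        left_inv := fun x => by simp, right_inv := fun x => by simp }
    have h1 := E_equiv e (fun x => Ssum x * φ (G x))
    have h2 := E_equiv e (fun x => v (G x) * φ (G x))
    have h3 : ∀ x, Ssum (e x) = - Ssum x := by
      intro x
      simp [e, Ssum, sg_not]
    simp only [h3, neg_mul, E_neg] at h1
    simp only [neg_mul, E_neg]
    have h4 := h.mean φ
    change _ = - E (fun x => v (G (e x)) * φ (G (e x)))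
    change - E (fun x => Ssum x * φ (G (e x))) = _ at h1
    change E (fun x => Ssum x * φ (G (e x))) = _
    linarith

variable {J : Type} [Fintype J] [DecidableEq J]

/-- block `j` of a point of the product cube -/
def blk (x : J × ι → Bool) (j : J) : ι → Bool := fun i => x (j, i)

lemma E_blk (F : (J → ι → Bool) → ℝ) : E (fun x : J × ι → Bool => F (blk x)) = E F :=
  E_equiv (Equiv.curry J ι Bool) F

omit [Fintype ι] [DecidableEq ι] [Fintype J] [DecidableEq J] in
lemma blk_mem {d : ℕ} {f : (ι → Bool) → ℝ} (hf : f ∈ LowDeg ι d) (j : J) :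
    (fun x : J × ι → Bool => f (blk x j)) ∈ LowDeg (J × ι) d :=
  reindex_mem (fun i => (j, i)) hf

/-- product of gadgets -/
lemma Gad.pi {G : J → (ι → Bool) → K} {v : J → K → ℝ} {c : J → K → ℕ}
    (h : ∀ j, Gad (G j) (v j) (c j)) :
    Gad (fun (x : J × ι → Bool) (j : J) => G j (blk x j)) (fun a => ∑ j, v j (a j))
      (fun a => ∑ j, c j (a j)) where
  deg a := by
    have := prod_mem' Finset.univ (fun j => c j (a j))
      (f := fun j (x : J × ι → Bool) => ind (G j (blk x j) = a j))
      (fun j _ => blk_mem ((h j).deg (a j)) j)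
    convert this using 2 with x
    by_cases hx : (fun j => G j (blk x j)) = a
    · rw [ind_pos hx]
      exact (Finset.prod_eq_one fun j _ => ind_pos (congrFun hx j)).symm
    · rw [ind_neg hx]
      obtain ⟨j, hj⟩ := Function.ne_iff.mp hx
      exact (Finset.prod_eq_zero (Finset.mem_univ j) (ind_neg hj)).symm
  mean φ := by
    have h1 : ∀ x : J × ι → Bool, Ssum x = ∑ j, Ssum (blk x j) := by
      intro x
      simp only [Ssum, blk]
      rw [Fintype.sum_prod_type]
    simp only [h1]
    rw [E_blk (fun y => (∑ j, Ssum (y j)) * φ (fun j => G j (y j))),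
      E_blk (fun y => (∑ j, v j (G j (y j))) * φ (fun j => G j (y j)))]
    simp only [Finset.sum_mul, E_sum]
    refine Finset.sum_congr rfl fun j _ => ?_
    rw [E_update j, E_update j (fun y : J → ι → Bool => v j (G j (y j)) * φ fun j => G j (y j))]
    refine E_congr fun y => ?_
    have h2 : ∀ ω, (fun j' => G j' (update y j ω j')) =
        update (fun j' => G j' (y j')) j (G j ω) := by
      intro ω
      funext j'
      by_cases hj : j' = j
      · subst hj; simp
      · simp [update_of_ne hj]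
    simp only [h2, update_self]
    exact (h j).mean (fun a => φ (update (fun j' => G j' (y j')) j a))

omit [Fintype J] [DecidableEq J] in
/-- juntas have low degree -/
lemma Gad.junta {G : (ι → Bool) → K} {v : K → ℝ} {d : ℕ} (h : Gad G v (fun _ => d))
    {T : Type} [Fintype T] [DecidableEq T] (e : T → J) (F : (T → K) → ℝ) :
    (fun x : J × ι → Bool => F (fun t => G (blk x (e t)))) ∈
      LowDeg (J × ι) (Fintype.card T * d) := by
  have h1 := Gad.pi (J := T) (G := fun _ => G) (v := fun _ => v) (c := fun _ _ => d) (fun _ => h)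
  simp only [Finset.sum_const, Finset.card_univ, smul_eq_mul] at h1
  exact reindex_mem (fun p : T × ι => (e p.1, p.2)) (h1.comp_mem F)

end

/-- there is a gadget of worst-case cost `d ≥ 1` explaining variance at least `ρ d` -/
def Good (ρ : ℝ) : Prop :=
  ∃ (ι K : Type) (_ : Fintype ι) (_ : DecidableEq ι) (G : (ι → Bool) → K) (v : K → ℝ) (d : ℕ),
    Gad G v (fun _ => d) ∧ 1 ≤ d ∧ ρ * d ≤ E (fun x => v (G x) ^ 2)

/-- the same with bounded kurtosis and a symmetric law -/
def Nice (ρ : ℝ) : Prop :=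
  ∃ (ι K : Type) (_ : Fintype ι) (_ : DecidableEq ι) (G : (ι → Bool) → K) (v : K → ℝ) (d : ℕ),
    Gad G v (fun _ => d) ∧ 1 ≤ d ∧ ρ * d ≤ E (fun x => v (G x) ^ 2) ∧
    E (fun x => v (G x) ^ 4) ≤ 4 * E (fun x => v (G x) ^ 2) ^ 2 ∧
    ∀ φ : ℝ → ℝ, E (fun x => φ (- v (G x))) = E (fun x => φ (v (G x)))

lemma good_one : Good 1 := by
  refine ⟨Unit, Bool, inferInstance, inferInstance, fun x => x (), sg, 1, ⟨fun a => ?_, fun φ => ?_⟩,
    le_rfl, ?_⟩
  · have := add_mem' (const_mem (ι := Unit) 1 (1 / 2)) (cmul_mem (sg a / 2) (sg_mem ()))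
    convert this using 2 with x
    cases a <;> cases x () <;> simp [ind, sg] <;> norm_num
  · simp [Ssum]
  · have : ∀ b, sg b ^ 2 = 1 := fun b => by rw [sq, sg_mul_self]
    simp [this, E_const]

lemma Good.nice {ρ : ℝ} (hρ : 0 < ρ) (h : Good ρ) : Nice ρ := by
  obtain ⟨ι, K, _, _, G, v, d, hG, hd, hv⟩ := h
  set σ2 := E (fun x => v (G x) ^ 2) with hσ2
  set m4 := E (fun x => v (G x) ^ 4) with hm4
  have hσ : 0 < σ2 := lt_of_lt_of_le (by positivity) hv
  obtain ⟨M, hM⟩ := exists_nat_gt (m4 / σ2 ^ 2)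
  have hm4' : 0 ≤ m4 := E_nonneg fun x => by positivity
  have hM0 : 0 < M := by
    have : (0 : ℝ) < M := lt_of_le_of_lt (by positivity) hM
    exact_mod_cast this
  rw [div_lt_iff₀ (by positivity)] at hM
  let nt : (ι → Bool) ≃ (ι → Bool) :=
    { toFun := fun x i => !x i, invFun := fun x i => !x i,
      left_inv := fun x => by simp, right_inv := fun x => by simp }
  let G' : Fin M × Bool → (ι → Bool) → K := fun j x => if j.2 then G x else G (nt x)
  let v' : Fin M × Bool → K → ℝ := fun j a => if j.2 then v a else - v a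
  have hG' : ∀ j, Gad (G' j) (v' j) (fun _ => d) := by
    rintro ⟨i, b⟩
    cases b
    · exact hG.neg
    · exact hG
  have hP := Gad.pi hG'
  simp only [Finset.sum_const, Finset.card_univ, smul_eq_mul, Fintype.card_prod,
    Fintype.card_fin, Fintype.card_bool] at hP
  have hmom := moments (J := Fin M × Bool) (fun j x => v' j (G' j x)) (fun j => (hG' j).E_v)
    Finset.univ
  have h2 : ∀ j, E (fun x => v' j (G' j x) ^ 2) = σ2 := by
    rintro ⟨i, b⟩
    cases b
    · simp only [G', v', Bool.false_eq_true, if_false, neg_sq]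
      exact E_equiv nt (fun x => v (G x) ^ 2)
    · rfl
  have h4 : ∀ j, E (fun x => v' j (G' j x) ^ 4) = m4 := by
    rintro ⟨i, b⟩
    cases b
    · have : ∀ t : ℝ, (-t) ^ 4 = t ^ 4 := fun t => by ring
      simp only [G', v', Bool.false_eq_true, if_false, this]
      exact E_equiv nt (fun x => v (G x) ^ 4)
    · rfl
  simp only [h2, h4, Finset.sum_const, Finset.card_univ, nsmul_eq_mul, Fintype.card_prod,
    Fintype.card_fin, Fintype.card_bool] at hmom
  obtain ⟨-, hV2, hV4⟩ := hmom
  refine ⟨_, _, inferInstance, inferInstance, _, _, _, hP, by nlinarith, ?_, ?_, ?_⟩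
  · rw [E_blk (fun y => (∑ j, v' j (G' j (y j))) ^ 2), hV2]
    push_cast
    have : (0 : ℝ) ≤ M := by positivity
    nlinarith
  · rw [E_blk (fun y => (∑ j, v' j (G' j (y j))) ^ 2),
      E_blk (fun y => (∑ j, v' j (G' j (y j))) ^ 4), hV2]
    refine hV4.trans ?_
    push_cast
    have : (0 : ℝ) < M := by positivity
    nlinarith [mul_pos this (pow_pos hσ 2)]
  · intro φ
    rw [E_blk (fun y => φ (- ∑ j, v' j (G' j (y j)))),
      E_blk (fun y => φ (∑ j, v' j (G' j (y j))))]
    let τ : (Fin M × Bool → ι → Bool) ≃ (Fin M × Bool → ι → Bool) :=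
      { toFun := fun y j => nt (y (j.1, !j.2))
        invFun := fun y j => nt (y (j.1, !j.2))
        left_inv := fun y => by funext j i; simp [nt]
        right_inv := fun y => by funext j i; simp [nt] }
    rw [← E_equiv τ (fun y => φ (∑ j, v' j (G' j (y j))))]
    refine E_congr fun y => ?_
    congr 1
    simp only [Fintype.sum_prod_type, Fintype.sum_bool, ← Finset.sum_neg_distrib]
    refine Finset.sum_congr rfl fun i _ => ?_
    have hn : ∀ x, nt (nt x) = x := fun x => by funext i; simp [nt]
    simp [τ, G', v', hn]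

/-- from average cost to worst-case cost -/
lemma good_of_avg {ι K : Type} [Fintype ι] [DecidableEq ι] {G : (ι → Bool) → K} {v : K → ℝ}
    {c : K → ℕ} (hG : Gad G v c) {ρ ρ' : ℝ} (hρ : 0 < ρ) (hρ' : ρ < ρ')
    (hc : 0 < E (fun x => (c (G x) : ℝ)))
    (hv : ρ' * E (fun x => (c (G x) : ℝ)) ≤ E (fun x => v (G x) ^ 2)) : Good ρ := by
  classical
  set cb := E (fun x => (c (G x) : ℝ)) with hcb
  set σ2 := E (fun x => v (G x) ^ 2) with hσ2
  set m4 := E (fun x => v (G x) ^ 4) with hm4
  set s2 := E (fun x => ((c (G x) : ℝ) - cb) ^ 2) with hs2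
  set s4 := E (fun x => ((c (G x) : ℝ) - cb) ^ 4) with hs4
  have hm4' : 0 ≤ m4 := E_nonneg fun x => by positivity
  have hs4' : 0 ≤ s4 := E_nonneg fun x => by positivity
  set δ := (ρ' - ρ) / (2 * ρ) with hδ
  have hδ0 : 0 < δ := div_pos (by linarith) (by positivity)
  set K0 := (3 * σ2 ^ 2 + m4 + 3 * s2 ^ 2 + s4) / (2 * (δ * cb) ^ 2) with hK0
  have hK0' : 0 ≤ K0 := by positivity
  obtain ⟨M, hM⟩ := exists_nat_gt (1 / cb + K0 / (cb * ((ρ' - ρ) / 2)))
  have hg : 0 < (ρ' - ρ) / 2 := by linarith
  have hM1 : 1 / cb < M := lt_of_le_of_lt (le_add_of_nonneg_right (by positivity)) hM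
  have hM2 : K0 / (cb * ((ρ' - ρ) / 2)) < M :=
    lt_of_le_of_lt (le_add_of_nonneg_left (by positivity)) hM
  have hM0 : (0 : ℝ) < M := lt_trans (by positivity) hM1
  have hM0' : (1 : ℝ) ≤ M := by
    have : 0 < M := by exact_mod_cast hM0
    exact_mod_cast this
  rw [div_lt_iff₀ hc] at hM1
  rw [div_lt_iff₀ (by positivity)] at hM2
  set D : ℕ := ⌊(1 + δ) * (M * cb)⌋₊ with hD
  have hD1 : (D : ℝ) ≤ (1 + δ) * (M * cb) := Nat.floor_le (by positivity)
  have hD2 : (1 + δ) * (M * cb) < D + 1 := Nat.lt_floor_add_one _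
  have hP := Gad.pi (J := Fin M) (G := fun _ => G) (v := fun _ => v) (c := fun _ => c)
    (fun _ => hG)
  let H : (Fin M → K) → Option (Fin M → K) := fun a => if ∑ j, c (a j) ≤ D then some a else none
  have hsome : ∀ a, (fun x : Fin M × ι → Bool => ind (H (fun j => G (blk x j)) = some a)) ∈
      LowDeg (Fin M × ι) D := by
    intro a
    by_cases ha : ∑ j, c (a j) ≤ D
    · have := LowDeg_mono ha (hP.deg a)
      convert this using 2 with x
      refine ind_congr ⟨fun h => ?_, fun h => ?_⟩
      · simp only [H] at h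
        split_ifs at h
        exact Option.some.inj h
      · simp only [H, h, ha, if_true]
    · convert const_mem (ι := Fin M × ι) D 0 using 2 with x
      refine ind_neg fun h => ?_
      simp only [H] at h
      split_ifs at h with h'
      obtain rfl := Option.some.inj h
      exact ha h'
  have hdeg : ∀ a, (fun x : Fin M × ι → Bool => ind (H (fun j => G (blk x j)) = a)) ∈
      LowDeg (Fin M × ι) D := by
    rintro (_ | a)
    · let GP : (Fin M × ι → Bool) → Option (Fin M → K) := fun x => H (fun j => G (blk x j))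
      have h1 : ∀ x, ind (GP x = none) =
          1 - ∑ a ∈ (Finset.univ.image GP).erase none, ind (GP x = a) := by
        intro x
        have h2 := comp_eq_sum_ind GP (fun a => ind (a ≠ none)) x
        have h3 : ∑ a ∈ (Finset.univ.image GP).erase none, ind (GP x = a) =
            ∑ a ∈ Finset.univ.image GP, ind (a ≠ none) * ind (GP x = a) := by
          rw [← Finset.sum_erase (Finset.univ.image GP) (a := none)
            (f := fun a => ind (a ≠ none) * ind (GP x = a)) (by simp [ind])]
          refine Finset.sum_congr rfl fun a ha => ?_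
          rw [ind_pos (Finset.ne_of_mem_erase ha), one_mul]
        rw [h3, ← h2]
        by_cases hx : GP x = none
        · rw [ind_pos hx, ind_neg (not_not.mpr hx)]; ring
        · rw [ind_neg hx, ind_pos hx]; ring
      change (fun x => ind (GP x = none)) ∈ _
      simp only [h1]
      refine sub_mem' (const_mem _ _) (sum_mem' _ fun a ha => ?_)
      obtain ⟨a', rfl⟩ := Option.ne_none_iff_exists'.mp (Finset.ne_of_mem_erase ha)
      exact hsome a'
    · exact hsome a
  have hQ := hP.coarsen H (fun _ => D) hdeg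
  refine ⟨_, _, inferInstance, inferInstance, _, _, D, hQ, ?_, ?_⟩
  · have : (1 : ℝ) ≤ (1 + δ) * (M * cb) := by nlinarith
    exact Nat.le_floor (by exact_mod_cast this)
  · have hls := cmean_sq_ge (fun x : Fin M × ι → Bool => H (fun j => G (blk x j)))
      (fun x => ∑ j, v (G (blk x j))) (fun o => o.elim 0 (fun a => ∑ j, v (a j)))
    refine le_trans ?_ hls
    have hmV := moments (J := Fin M) (fun _ x => v (G x)) (fun _ => hG.E_v) Finset.univ
    have hmZ := moments (J := Fin M) (fun _ x => (c (G x) : ℝ) - cb)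
      (fun _ => by rw [E_sub, E_const]; simp [hcb]) Finset.univ
    simp only [Finset.sum_const, Finset.card_univ, nsmul_eq_mul, Fintype.card_fin] at hmV hmZ
    obtain ⟨-, hV2, hV4⟩ := hmV
    obtain ⟨-, -, hZ4⟩ := hmZ
    rw [E_blk (fun y => (∑ j, v (G (y j))) ^ 2), hV2,
      E_blk (fun y => ((∑ j, v (G (y j))) -
        (H (fun j => G (y j))).elim 0 (fun a => ∑ j, v (a j))) ^ 2)]
    have hpt : ∀ y : Fin M → ι → Bool, ((∑ j, v (G (y j))) -
        (H (fun j => G (y j))).elim 0 (fun a => ∑ j, v (a j))) ^ 2 ≤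
        ((∑ j, v (G (y j))) ^ 4 + (∑ j, ((c (G (y j)) : ℝ) - cb)) ^ 4) /
          (2 * (δ * (M * cb)) ^ 2) := by
      intro y
      by_cases hy : ∑ j, c (G (y j)) ≤ D
      · simp only [H, hy, if_true, Option.elim_some, sub_self]
        rw [zero_pow two_ne_zero]
        positivity
      · simp only [H, hy, if_false, Option.elim_none, sub_zero]
        set V := ∑ j, v (G (y j))
        set Z := ∑ j, ((c (G (y j)) : ℝ) - cb) with hZ
        have hZ' : δ * (M * cb) ≤ Z := by
          have h5 : D + 1 ≤ ∑ j, c (G (y j)) := by omega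
          have h6 : ((D : ℝ) + 1) ≤ ∑ j, (c (G (y j)) : ℝ) := by exact_mod_cast h5
          simp only [hZ, Finset.sum_sub_distrib, Finset.sum_const, Finset.card_univ,
            Fintype.card_fin, nsmul_eq_mul]
          linarith
        have h7 : 0 < δ * (M * cb) := by positivity
        rw [le_div_iff₀ (by positivity)]
        have h8 : (δ * (M * cb)) ^ 2 ≤ Z ^ 2 := by gcongr
        nlinarith [sq_nonneg (V ^ 2 - Z ^ 2), mul_le_mul_of_nonneg_left h8 (sq_nonneg V)]
    have herr := E_mono hpt
    rw [E_div_const, E_add] at herr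
    have hK : (E (fun y : Fin M → ι → Bool => (∑ j, v (G (y j))) ^ 4) +
        E (fun y : Fin M → ι → Bool => (∑ j, ((c (G (y j)) : ℝ) - cb)) ^ 4)) /
        (2 * (δ * (M * cb)) ^ 2) ≤ K0 := by
      rw [div_le_iff₀ (by positivity), hK0]
      have : (3 * σ2 ^ 2 + m4 + 3 * s2 ^ 2 + s4) / (2 * (δ * cb) ^ 2) * (2 * (δ * (M * cb)) ^ 2) =
          (M : ℝ) ^ 2 * (3 * σ2 ^ 2 + m4 + 3 * s2 ^ 2 + s4) := by
        field_simp
      rw [this]
      have h9 : (M : ℝ) * m4 ≤ M ^ 2 * m4 := by
        apply mul_le_mul_of_nonneg_right _ hm4'; nlinarith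
      have h10 : (M : ℝ) * s4 ≤ M ^ 2 * s4 := by
        apply mul_le_mul_of_nonneg_right _ hs4'; nlinarith
      nlinarith
    have h11 : ρ * (1 + δ) = ρ' - (ρ' - ρ) / 2 := by
      rw [hδ]; field_simp; ring
    have h12 : ρ * D ≤ (ρ' - (ρ' - ρ) / 2) * (M * cb) := by
      rw [← h11, mul_assoc]
      exact mul_le_mul_of_nonneg_left hD1 hρ.le
    have h13 : M * (ρ' * cb) ≤ M * σ2 := mul_le_mul_of_nonneg_left hv hM0.le
    nlinarith

end Crest.Agent.R63
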