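import Crest.Agent.R63.Basic

/-!
Row 63 (S0085).  Orientation signs of rainbow blocks (determinants of class patterns), the bits
made from them, and residual variables.
-/

set_option autoImplicit false

namespace Crest.Agent.R63

open Finset Function

section Eps
variable {Q : Type} [Fintype Q] [DecidableEq Q]

/-- the sign of `f` if it is a bijection, zero otherwise -/
noncomputable def eps (f : Q → Q) : ℝ := (Matrix.of fun i b => ind (f i = b)).det

lemma eps_eq_zero {f : Q → Q} (h : ¬ Bijective f) : eps f = 0 := by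
  rw [← Finite.injective_iff_bijective] at h
  unfold Injective at h
  push Not at h
  obtain ⟨i, j, hij, hne⟩ := h
  refine Matrix.det_zero_of_row_eq hne ?_
  funext b
  simp [hij]

lemma eps_mul_self {f : Q → Q} (h : Bijective f) : eps f * eps f = 1 := by
  have h1 : (Matrix.of fun i b => ind (f i = b)) =
      (1 : Matrix Q Q ℝ).submatrix (Equiv.ofBijective f h) id := by
    ext i b
    simp [ind, Matrix.one_apply]
  unfold eps
  rw [h1, Matrix.det_permute, Matrix.det_one, mul_one]
  rcases Int.units_eq_one_or (Equiv.Perm.sign (Equiv.ofBijective f h)) with h2 | h2 <;> simp [h2]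

lemma eps_swap (f : Q → Q) {i0 i1 : Q} (h : i0 ≠ i1) :
    eps (fun i => f (Equiv.swap i0 i1 i)) = - eps f := by
  have h1 : (Matrix.of fun i b => ind (f (Equiv.swap i0 i1 i) = b)) =
      (Matrix.of fun i b => ind (f i = b)).submatrix (Equiv.swap i0 i1) id := by
    ext i b; simp
  unfold eps
  rw [h1, Matrix.det_permute, Equiv.Perm.sign_swap h]
  simp

lemma eps_eq_sum (f : Q → Q) (b0 : Q) :
    eps f = ∑ σ : Equiv.Perm Q, ((Equiv.Perm.sign σ : ℤ) : ℝ) *
      ∏ i ∈ Finset.univ.erase b0, ind (f (σ i) = i) := by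
  have h := Matrix.det_updateCol_sum (Matrix.of fun i b => ind (f i = b)) b0 (fun _ => (1 : ℝ))
  rw [one_smul] at h
  unfold eps
  rw [← h, Matrix.det_apply']
  refine Finset.sum_congr rfl fun σ _ => ?_
  congr 1
  rw [← Finset.mul_prod_erase Finset.univ _ (Finset.mem_univ b0), Matrix.updateCol_self]
  have h2 : ∑ i, (1 : ℝ) • (Matrix.of fun i b => ind (f i = b)) (σ b0) i = 1 := by
    simp only [one_smul, Matrix.of_apply]
    rw [Finset.sum_eq_single (f (σ b0))]
    · exact ind_pos rfl
    · intro c _ hc; exact ind_neg fun h => hc h.symm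
    · intro h'; exact absurd (Finset.mem_univ _) h'
  rw [h2, one_mul]
  refine Finset.prod_congr rfl fun i hi => ?_
  rw [Matrix.updateCol_ne (Finset.ne_of_mem_erase hi), Matrix.of_apply]

end Eps

section Bits
variable {L T Q : Type} [Fintype L] [DecidableEq L] [Fintype T] [DecidableEq T]
  [Fintype Q] [DecidableEq Q]

/-- all blocks are rainbow -/
def allGood (κ : (L × T) × Q → Q) : Prop := ∀ p : L × T, Bijective (fun i => κ (p, i))

/-- product of the orientations in group `l` -/
noncomputable def ep (κ : (L × T) × Q → Q) (l : L) : ℝ := ∏ s, eps (fun i => κ ((l, s), i))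

/-- indicator that all blocks of group `l` are rainbow -/
noncomputable def gd (κ : (L × T) × Q → Q) (l : L) : ℝ :=
  ∏ s, ind (Bijective (fun i => κ ((l, s), i)))

/-- the hidden bits -/
noncomputable def bits (κ : (L × T) × Q → Q) : L → Bool := fun l => decide (0 < ep κ l)

omit [Fintype L] [DecidableEq L] [DecidableEq T] in
lemma ep_eq_sg {κ : (L × T) × Q → Q} (h : allGood κ) (l : L) : ep κ l = sg (bits κ l) := by
  have h1 : ep κ l * ep κ l = 1 := by
    unfold ep
    rw [← Finset.prod_mul_distrib]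
    exact Finset.prod_eq_one fun s _ => eps_mul_self (h (l, s))
  rcases mul_self_eq_one_iff.mp h1 with h2 | h2 <;> simp [bits, h2, sg]

omit [DecidableEq T] in
lemma ind_bits (κ : (L × T) × Q → Q) (Ψ : (L → Bool) → ℝ) :
    ind (allGood κ) * Ψ (bits κ) =
      ∑ e : L → Bool, Ψ e * ∏ l, ((sg (e l) * ep κ l + gd κ l) / 2) := by
  by_cases h : allGood κ
  · rw [ind_pos h, one_mul, Finset.sum_eq_single (bits κ)]
    · rw [Finset.prod_eq_one, mul_one]
      intro l _
      have : gd κ l = 1 := Finset.prod_eq_one fun s _ => ind_pos (h (l, s))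
      rw [this, ep_eq_sg h, sg_mul_self]; norm_num
    · intro e _ he
      obtain ⟨l, hl⟩ := Function.ne_iff.mp he
      rw [Finset.prod_eq_zero (Finset.mem_univ l), mul_zero]
      have : gd κ l = 1 := Finset.prod_eq_one fun s _ => ind_pos (h (l, s))
      rw [this, ep_eq_sg h]
      revert hl
      cases e l <;> cases bits κ l <;> simp [sg]
    · intro h'; exact absurd (Finset.mem_univ _) h'
  · rw [ind_neg h, zero_mul]
    unfold allGood at h
    push Not at h
    obtain ⟨⟨l, s⟩, hp⟩ := h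
    refine (Finset.sum_eq_zero fun e _ => ?_).symm
    rw [Finset.prod_eq_zero (Finset.mem_univ l), mul_zero]
    have h1 : gd κ l = 0 := Finset.prod_eq_zero (Finset.mem_univ s) (ind_neg hp)
    have h2 : ep κ l = 0 := Finset.prod_eq_zero (Finset.mem_univ s) (eps_eq_zero hp)
    rw [h1, h2]; simp

/-- given that all blocks are rainbow, the hidden bits are uniform -/
lemma E_bits [Nontrivial Q] [Nonempty T] {Ω : Type} [Fintype Ω] (q : Ω → Q)
    (Ψ : (L → Bool) → ℝ) :
    E (fun y : (L × T) × Q → Ω => ind (allGood (q ∘ y)) * Ψ (bits (q ∘ y))) =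
      E (fun y : (L × T) × Q → Ω => ind (allGood (q ∘ y))) * E Ψ := by
  obtain ⟨i0, i1, hi⟩ := exists_pair_ne Q
  obtain ⟨s0⟩ := ‹Nonempty T›
  let π : (L → Bool) → L × T → Equiv.Perm Q := fun t p =>
    if t p.1 = true ∧ p.2 = s0 then Equiv.swap i0 i1 else Equiv.refl Q
  let τ : (L → Bool) → ((L × T) × Q ≃ (L × T) × Q) := fun t =>
    Equiv.prodShear (Equiv.refl _) (π t)
  have hgood : ∀ t (κ : (L × T) × Q → Q), allGood (κ ∘ τ t) ↔ allGood κ := by
    intro t κ
    refine forall_congr' fun p => ?_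
    exact Equiv.bijective_comp (π t p) (fun i => κ (p, i))
  have hep : ∀ t (κ : (L × T) × Q → Q) l, ep (κ ∘ τ t) l = sg (!t l) * ep κ l := by
    intro t κ l
    unfold ep
    by_cases ht : t l = true
    · rw [← Finset.mul_prod_erase Finset.univ _ (Finset.mem_univ s0),
        ← Finset.mul_prod_erase Finset.univ (fun s => eps fun i => κ ((l, s), i))
          (Finset.mem_univ s0)]
      have h1 : eps (fun i => (κ ∘ τ t) ((l, s0), i)) = - eps (fun i => κ ((l, s0), i)) := by
        rw [← eps_swap (fun i => κ ((l, s0), i)) hi]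
        simp [τ, π, ht]
      have h2 : ∏ s ∈ Finset.univ.erase s0, eps (fun i => (κ ∘ τ t) ((l, s), i)) =
          ∏ s ∈ Finset.univ.erase s0, eps (fun i => κ ((l, s), i)) := by
        refine Finset.prod_congr rfl fun s hs => ?_
        simp [τ, π, Finset.ne_of_mem_erase hs]
      rw [h1, h2]
      simp [ht, sg]
    · simp [τ, π, ht, sg]
  have hbits : ∀ t (κ : (L × T) × Q → Q), allGood κ →
      bits (κ ∘ τ t) = fun l => xor (t l) (bits κ l) := by
    intro t κ h
    funext l
    have h1 := hep t κ l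
    rw [ep_eq_sg h, ep_eq_sg ((hgood t κ).mpr h)] at h1
    revert h1
    cases bits (κ ∘ τ t) l <;> cases t l <;> cases bits κ l <;> simp [sg] <;> norm_num
  have h1 : ∀ t : L → Bool, E (fun y : (L × T) × Q → Ω => ind (allGood (q ∘ y)) * Ψ (bits (q ∘ y))) =
      E (fun y : (L × T) × Q → Ω =>
        ind (allGood (q ∘ y)) * Ψ (fun l => xor (t l) (bits (q ∘ y) l))) := by
    intro t
    rw [← E_equiv (Equiv.arrowCongr (τ t).symm (Equiv.refl Ω))
      (fun y : (L × T) × Q → Ω => ind (allGood (q ∘ y)) * Ψ (bits (q ∘ y)))]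
    refine E_congr fun y => ?_
    change ind (allGood ((q ∘ y) ∘ τ t)) * Ψ (bits ((q ∘ y) ∘ τ t)) = _
    by_cases h : allGood (q ∘ y)
    · rw [hbits t _ h, ind_congr (hgood t _)]
    · rw [ind_neg h, ind_neg (fun h' => h ((hgood t _).mp h')), zero_mul, zero_mul]
  rw [← E_const (α := L → Bool)
    (E (fun y : (L × T) × Q → Ω => ind (allGood (q ∘ y)) * Ψ (bits (q ∘ y))))]
  rw [E_congr h1, E_comm, ← E_mul_const]
  refine E_congr fun y => ?_
  rw [E_const_mul]
  congr 1
  let e : (L → Bool) ≃ (L → Bool) :=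
    { toFun := fun t l => xor (t l) (bits (q ∘ y) l)
      invFun := fun t l => xor (t l) (bits (q ∘ y) l)
      left_inv := fun t => by funext l; simp
      right_inv := fun t => by funext l; simp }
  exact E_equiv e Ψ

omit [DecidableEq L] [DecidableEq T] [DecidableEq Q] in
/-- on rainbow patterns, sums over positions are sums over classes -/
lemma sum_of_allGood {κ : (L × T) × Q → Q} (h : allGood κ) (φ : Q → ℝ) :
    ∑ j, φ (κ j) = (Fintype.card L * Fintype.card T) * ∑ a, φ a := by
  rw [Fintype.sum_prod_type]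
  have : ∀ p : L × T, ∑ i, φ (κ (p, i)) = ∑ a, φ a := fun p => (h p).sum_comp φ
  simp [this]

lemma E_allGood_ge {Ω : Type} [Fintype Ω] (q : Ω → Q) {p0 : ℝ} (hp0 : 0 ≤ p0)
    (hq : ∀ a, p0 ≤ E (fun ω => ind (q ω = a))) :
    p0 ^ Fintype.card ((L × T) × Q) ≤ E (fun y : (L × T) × Q → Ω => ind (allGood (q ∘ y))) := by
  have h1 := E_pi_prod (J := (L × T) × Q) (fun j ω => ind (q ω = j.2))
  have h2 : p0 ^ Fintype.card ((L × T) × Q) ≤
      ∏ j : (L × T) × Q, E (fun ω => ind (q ω = j.2)) := by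
    rw [← Finset.card_univ, ← Finset.prod_const]
    exact Finset.prod_le_prod (fun _ _ => hp0) fun j _ => hq j.2
  refine h2.trans (h1.symm.le.trans (E_mono fun y => ?_))
  by_cases h : ∀ j, q (y j) = j.2
  · rw [ind_pos, Finset.prod_eq_one fun j _ => ind_pos (h j)]
    intro p
    have : (fun i => (q ∘ y) (p, i)) = id := funext fun i => h (p, i)
    rw [this]; exact bijective_id
  · push Not at h
    obtain ⟨j, hj⟩ := h
    rw [Finset.prod_eq_zero (Finset.mem_univ j) (ind_neg hj)]
    exact ind_nonneg _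

end Bits

section Round
variable {α : Type} [Fintype α]

/-- a Boolean function on `α` with `N` true values -/
noncomputable def rnd (N : ℕ) (e : α) : Bool := decide ((Fintype.equivFin α e : ℕ) < N)

lemma E_sg_rnd [Nonempty α] {N : ℕ} (h : N ≤ Fintype.card α) :
    E (fun e : α => sg (rnd N e)) = 2 * N / Fintype.card α - 1 := by
  have h1 : ∀ e : α, sg (rnd N e) = 2 * (if (Fintype.equivFin α e : ℕ) < N then 1 else 0) - 1 := by
    intro e
    unfold rnd sg
    by_cases h : (Fintype.equivFin α e : ℕ) < N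
    · simp only [h, decide_true, if_true]; norm_num
    · simp [h]
  simp only [h1, E_sub, E_const, E_const_mul]
  rw [E_equiv (Fintype.equivFin α) (fun i => if (i : ℕ) < N then (1 : ℝ) else 0)]
  unfold E
  rw [Finset.sum_boole, Fin.card_filter_val_lt, min_eq_right h, Fintype.card_fin, mul_div_assoc]

end Round

section Resid
variable {I Ω Q : Type} [Fintype I] [DecidableEq I] [Fintype Ω] [Nonempty Ω]

lemma E_orth (q : Ω → Q) (j : I) (r : Ω → ℝ) (hr : ∀ φ : Q → ℝ, E (fun ω => r ω * φ (q ω)) = 0)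
    (Ψ : (I → Ω) → ℝ) (Φ : (I → Ω) → Q → ℝ) (hΨ : ∀ y ω, Ψ (update y j ω) = Φ y (q ω)) :
    E (fun y => r (y j) * Ψ y) = 0 := by
  rw [E_update j]
  simp only [update_self, hΨ, hr, E_zero]

omit [Nonempty Ω] in
lemma resid_orth (q : Ω → Q) (w : Ω → ℝ) (φ : Q → ℝ) :
    E (fun ω => (w ω - cmean q w (q ω)) * φ (q ω)) = 0 := by
  simp only [sub_mul, E_sub]
  rw [E_cmean q w φ, sub_self]

lemma resid_one (q : Ω → Q) (r : Ω → ℝ) (hr : ∀ φ : Q → ℝ, E (fun ω => r ω * φ (q ω)) = 0)
    (Θ : (I → Q) → ℝ) : E (fun y : I → Ω => Θ (q ∘ y) * ∑ j, r (y j)) = 0 := by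
  simp only [Finset.mul_sum, E_sum]
  refine Finset.sum_eq_zero fun j _ => ?_
  simp only [mul_comm (Θ _)]
  exact E_orth q j r hr (fun y => Θ (q ∘ y)) (fun y c => Θ (update (q ∘ y) j c))
    (fun y ω => by rw [Function.comp_update])

lemma resid_two (q : Ω → Q) (r : Ω → ℝ) (hr : ∀ φ : Q → ℝ, E (fun ω => r ω * φ (q ω)) = 0)
    (Θ : (I → Q) → ℝ) : E (fun y : I → Ω => Θ (q ∘ y) * (∑ j, r (y j)) ^ 2) =
      E (fun y : I → Ω => Θ (q ∘ y) * ∑ j, cmean q (fun ω => r ω ^ 2) (q (y j))) := by
  have h1 := resid_one q (fun ω => r ω ^ 2 - cmean q (fun ω => r ω ^ 2) (q ω))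
    (resid_orth q (fun ω => r ω ^ 2)) Θ
  simp only [Finset.sum_sub_distrib, mul_sub, E_sub] at h1
  rw [← sub_eq_zero.mp h1]
  simp only [sq, Finset.sum_mul_sum]
  simp only [Finset.mul_sum, E_sum]
  refine Finset.sum_congr rfl fun j _ => ?_
  rw [Finset.sum_eq_single j]
  · intro i _ hi
    have := E_orth q j r hr (fun y => Θ (q ∘ y) * r (y i))
      (fun y c => Θ (update (q ∘ y) j c) * r (y i))
      (fun y ω => by rw [Function.comp_update, update_of_ne hi])
    rw [← this]
    exact E_congr fun y => by ring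
  · intro h; exact absurd (Finset.mem_univ _) h

omit [Nonempty Ω] in
lemma cvar_le (q : Ω → Q) (w : Ω → ℝ) (a : Q) (z t : ℝ) (hp : 0 < E (fun ω => ind (q ω = a)))
    (h : E (fun ω => (w ω - z) ^ 2 * ind (q ω = a)) ≤ t * E (fun ω => ind (q ω = a))) :
    cmean q (fun ω => (w ω - cmean q w (q ω)) ^ 2) a ≤ t := by
  refine le_of_mul_le_mul_right ?_ hp
  rw [cmean_mul]
  refine le_trans ?_ h
  have h1 := resid_orth q w (fun b => ind (b = a))
  have h2 : ∀ ω, (w ω - cmean q w (q ω)) ^ 2 * ind (q ω = a) ≤ (w ω - z) ^ 2 * ind (q ω = a) -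
      2 * (cmean q w a - z) * ((w ω - cmean q w (q ω)) * ind (q ω = a)) := by
    intro ω
    by_cases hω : q ω = a
    · rw [ind_pos hω, hω]; nlinarith [sq_nonneg (cmean q w a - z)]
    · rw [ind_neg hω]; simp
  have h3 := E_mono h2
  rw [E_sub, E_const_mul, h1] at h3
  linarith

end Resid

end Crest.Agent.R63
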