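import Crest.Agent.R63.Gadget
import Crest.Agent.R63.Classes
import Crest.Agent.R63.Orient

/-!
Row 63 (S0085).  The gain step: a uniform multiplicative improvement of the ratio
(explained variance) / (degree).
-/

set_option autoImplicit false

namespace Crest.Agent.R63

open Finset Function

/-- number of true values used to round `T5 (W / n)` -/
def cnt (n : ℕ) (W : ℤ) : ℕ := ((n : ℤ) ^ 5 + 16 * W ^ 5 - 20 * n ^ 2 * W ^ 3 + 5 * n ^ 4 * W).toNat

lemma cnt_spec {n : ℕ} (hn : 0 < n) {W : ℤ} (hW : |(W : ℝ)| ≤ n) :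
    cnt n W ≤ 2 * n ^ 5 ∧ (2 * (cnt n W : ℝ) / ((2 * n ^ 5 : ℕ) : ℝ) - 1 = T5 (W / n)) := by
  have hn' : (0 : ℝ) < n := by exact_mod_cast hn
  have h1 : |(W : ℝ) / n| ≤ 1 := by rw [abs_div, abs_of_pos hn', div_le_one hn']; exact hW
  have h2 := abs_le.mp (abs_T5_le h1)
  set P : ℤ := (n : ℤ) ^ 5 + 16 * W ^ 5 - 20 * n ^ 2 * W ^ 3 + 5 * n ^ 4 * W with hP
  have h3 : (P : ℝ) = n ^ 5 * (1 + T5 (W / n)) := by
    rw [hP]; unfold T5; push_cast; field_simp; ring
  have h4 : (0 : ℝ) ≤ P := by rw [h3]; exact mul_nonneg (by positivity) (by linarith [h2.1])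
  have h5 : (0 : ℤ) ≤ P := by exact_mod_cast h4
  have h6 : (cnt n W : ℝ) = P := by
    have : ((cnt n W : ℕ) : ℤ) = P := Int.toNat_of_nonneg h5
    exact_mod_cast this
  constructor
  · have : (cnt n W : ℝ) ≤ 2 * n ^ 5 := by
      rw [h6, h3]
      have : (0 : ℝ) < n ^ 5 := by positivity
      nlinarith [h2.2]
    exact_mod_cast this
  · rw [h6, h3]; push_cast; field_simp; ring

section
variable {K Q L : Type} [Fintype Q] [DecidableEq Q] [Fintype L] [DecidableEq L]

/-- sum of the signs of the values -/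
noncomputable def Wz {n : ℕ} (v : K → ℝ) (a : Fin n → K) : ℤ := ∑ i, sgnZ (v (a i))

lemma abs_Wz_le {n : ℕ} (v : K → ℝ) (a : Fin n → K) : |(Wz v a : ℝ)| ≤ n := by
  unfold Wz
  push_cast
  refine (Finset.abs_sum_le_sum_abs _ _).trans ?_
  have := Finset.sum_le_card_nsmul Finset.univ (fun j => |(sgnZ (v (a j)) : ℝ)|) 1
    (fun j _ => abs_sgnZ_le _)
  simpa using this

omit [DecidableEq L] in
lemma E_rnd_cnt [DecidableEq L] {n : ℕ} (hn : 0 < n) (hL : Fintype.card (L → Bool) = 2 * n ^ 5)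
    (v : K → ℝ) (a : Fin n → K) :
    E (fun e : L → Bool => sg (rnd (cnt n (Wz v a)) e)) = T5 (Wz v a / n) := by
  obtain ⟨h1, h2⟩ := cnt_spec hn (abs_Wz_le v a)
  rw [E_sg_rnd (hL ▸ h1), hL, h2]

open Classical in
/-- the new labelling -/
noncomputable def Hm {n : ℕ} (v : K → ℝ) (cls : K → Q) (a : Fin n ⊕ (L × Fin n) × Q → K) :
    (Fin n ⊕ (L × Fin n) × Q → K) ⊕ Bool :=
  if allGood (fun j => cls (a (Sum.inr j))) then
    Sum.inr (rnd (cnt n (Wz v (fun i => a (Sum.inl i)))) (bits (fun j => cls (a (Sum.inr j)))))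
  else Sum.inl a

lemma ind_eq_sg (b β : Bool) : ind (b = β) = 1 / 2 + sg β / 2 * sg b := by
  cases b <;> cases β <;> simp [ind, sg] <;> norm_num

variable {ι : Type} [Fintype ι] [DecidableEq ι]

lemma Hm_deg [Nonempty Q] {n : ℕ} (hn : 0 < n) (hL : Fintype.card (L → Bool) = 2 * n ^ 5)
    {G : (ι → Bool) → K} {v : K → ℝ} {d : ℕ} (hG : Gad G v (fun _ => d)) (cls : K → Q)
    (β : Bool) :
    (fun x : (Fin n ⊕ (L × Fin n) × Q) × ι → Bool =>
      ind (Hm v cls (fun j => G (blk x j)) = Sum.inr β)) ∈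
      LowDeg _ ((Fintype.card L * n * Fintype.card Q + 5) * d) := by
  obtain ⟨b0⟩ := ‹Nonempty Q›
  set k := Fintype.card Q with hk
  have hk1 : 1 ≤ k := Fintype.card_pos
  obtain ⟨k', hk'⟩ : ∃ k', k = k' + 1 := ⟨k - 1, by omega⟩
  let pat : ((Fin n ⊕ (L × Fin n) × Q) × ι → Bool) → (L × Fin n) × Q → Q :=
    fun x j => cls (G (blk x (Sum.inr j)))
  let mn : ((Fin n ⊕ (L × Fin n) × Q) × ι → Bool) → Fin n → K :=
    fun x i => G (blk x (Sum.inl i))
  have h1 : ∀ x, ind (Hm v cls (fun j => G (blk x j)) = Sum.inr β) =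
      ∑ t : Finset L, (∑ e : L → Bool, ind (rnd (cnt n (Wz v (mn x))) e = β) *
        ((1 / 2) ^ Fintype.card L * ∏ l ∈ t, sg (e l))) *
        ((∏ l ∈ t, ep (pat x) l) * ∏ l ∈ tᶜ, gd (pat x) l) := by
    intro x
    have h2 : ind (Hm v cls (fun j => G (blk x j)) = Sum.inr β) =
        ind (allGood (pat x)) * ind (rnd (cnt n (Wz v (mn x))) (bits (pat x)) = β) := by
      by_cases h : allGood (pat x)
      · rw [ind_pos h, one_mul]
        unfold Hm
        rw [if_pos h]
        exact ind_congr Sum.inr_injective.eq_iff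
      · rw [ind_neg h, zero_mul]
        unfold Hm
        rw [if_neg h]
        exact ind_neg Sum.inl_ne_inr
    rw [h2, ind_bits (pat x) (fun e => ind (rnd (cnt n (Wz v (mn x))) e = β))]
    simp only [Finset.sum_mul]
    rw [Finset.sum_comm]
    refine Finset.sum_congr rfl fun e _ => ?_
    rw [Finset.prod_div_distrib, Fintype.prod_add, Finset.sum_div, Finset.mul_sum]
    refine Finset.sum_congr rfl fun t _ => ?_
    rw [Finset.prod_mul_distrib, Finset.prod_const, Finset.card_univ, one_div, inv_pow]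
    ring
  simp only [h1]
  have heps : ∀ p : L × Fin n, (fun x => eps (fun i => pat x (p, i))) ∈ LowDeg _ (k' * d) := by
    intro p
    simp only [eps_eq_sum _ b0]
    refine sum_mem' _ fun σ _ => cmul_mem _ ?_
    have := prod_mem' (Finset.univ.erase b0) (fun _ => d)
      (f := fun i x => ind (pat x (p, σ i) = i))
      (fun i _ => blk_mem (hG.comp_mem (fun a => ind (cls a = i))) (Sum.inr (p, σ i)))
    rw [Finset.sum_const, Finset.card_erase_of_mem (Finset.mem_univ _), Finset.card_univ, ← hk,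
      hk', smul_eq_mul, Nat.add_sub_cancel] at this
    exact this
  have hep : ∀ l, (fun x => ep (pat x) l) ∈ LowDeg _ (n * (k' * d)) := by
    intro l
    have := prod_mem' Finset.univ (fun _ => k' * d)
      (f := fun (s : Fin n) x => eps (fun i => pat x ((l, s), i))) (fun s _ => heps (l, s))
    rw [Finset.sum_const, Finset.card_univ, Fintype.card_fin, smul_eq_mul] at this
    exact this
  have hgd : ∀ l, (fun x => gd (pat x) l) ∈ LowDeg _ (n * (k * d)) := by
    intro l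
    have := prod_mem' Finset.univ (fun _ => k * d)
      (f := fun (s : Fin n) x => ind (Bijective (fun i => pat x ((l, s), i))))
      (fun s _ => hG.junta (J := Fin n ⊕ (L × Fin n) × Q) (fun i : Q => Sum.inr ((l, s), i))
        (fun b => ind (Bijective (fun i => cls (b i)))))
    rw [Finset.sum_const, Finset.card_univ, Fintype.card_fin, smul_eq_mul] at this
    exact this
  have hpr : ∀ t : Finset L, (fun x => (∏ l ∈ t, ep (pat x) l) * ∏ l ∈ tᶜ, gd (pat x) l) ∈
      LowDeg _ (t.card * (n * (k' * d)) + tᶜ.card * (n * (k * d))) := by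
    intro t
    have h2 := prod_mem' t (fun _ => n * (k' * d)) (f := fun l x => ep (pat x) l)
      (fun l _ => hep l)
    have h3 := prod_mem' tᶜ (fun _ => n * (k * d)) (f := fun l x => gd (pat x) l)
      (fun l _ => hgd l)
    simp only [Finset.sum_const, smul_eq_mul] at h2 h3
    exact mul_mem' h2 h3
  refine sum_mem' _ fun t _ => ?_
  have hcard : t.card + tᶜ.card = Fintype.card L := Finset.card_add_card_compl t
  rcases Finset.eq_empty_or_nonempty t with rfl | ht
  · have h2 : ∀ x, ∑ e : L → Bool, ind (rnd (cnt n (Wz v (mn x))) e = β) *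
        ((1 / 2) ^ Fintype.card L * ∏ l ∈ (∅ : Finset L), sg (e l)) =
        1 / 2 + sg β / 2 * T5 (Wz v (mn x) / n) := by
      intro x
      have h3 : E (fun e : L → Bool => ind (rnd (cnt n (Wz v (mn x))) e = β)) =
          1 / 2 + sg β / 2 * T5 (Wz v (mn x) / n) := by
        simp only [ind_eq_sg, E_add, E_const, E_const_mul, E_rnd_cnt hn hL]
      rw [← h3]
      simp only [Finset.prod_empty, mul_one, ← Finset.sum_mul, E,
        Fintype.card_fun, Fintype.card_bool]
      push_cast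
      rw [one_div, inv_pow, div_eq_mul_inv]
    simp only [h2]
    have h3 : (fun x => (Wz v (mn x) : ℝ) / n) ∈ LowDeg _ d := by
      have h4 : (fun x => ∑ i, (sgnZ (v (mn x i)) : ℝ)) ∈ LowDeg _ d :=
        sum_mem' _ fun i _ => blk_mem (hG.comp_mem (fun a => (sgnZ (v a) : ℝ))) (Sum.inl i)
      have := cmul_mem (1 / n) h4
      convert this using 2 with x
      unfold Wz; push_cast; ring
    have h4 : (fun x => T5 ((Wz v (mn x) : ℝ) / n)) ∈ LowDeg _ (5 * d) := by
      unfold T5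
      exact add_mem' (sub_mem' (cmul_mem _ (pow_mem' h3 5))
        (cmul_mem _ (LowDeg_mono (by omega) (pow_mem' h3 3))))
        (cmul_mem _ (LowDeg_mono (by omega) h3))
    refine LowDeg_mono ?_ (mul_mem' (add_mem' (const_mem _ _) (cmul_mem _ h4)) (hpr ∅))
    rw [← hcard]
    simp only [Finset.card_empty, zero_mul, zero_add]
    nlinarith
  · have h2 := hG.junta (J := Fin n ⊕ (L × Fin n) × Q) (fun i : Fin n => Sum.inl i)
      (fun b => ∑ e : L → Bool, ind (rnd (cnt n (Wz v b)) e = β) *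
        ((1 / 2) ^ Fintype.card L * ∏ l ∈ t, sg (e l)))
    refine LowDeg_mono ?_ (mul_mem' h2 (hpr t))
    obtain ⟨a, ha⟩ : ∃ a, t.card = a + 1 := ⟨t.card - 1, by have := ht.card_pos; omega⟩
    rw [← hcard, ha, hk', Fintype.card_fin]
    nlinarith [Nat.zero_le (a * n * d), Nat.zero_le d]

/-- the mean square prediction error -/
lemma err_le [Nontrivial Q] {Ω : Type} [Fintype Ω] [Nonempty Ω] {n : ℕ} (hn : 0 < n)
    (hL : Fintype.card (L → Bool) = 2 * n ^ 5) (G : Ω → K) (v : K → ℝ) (cls : K → Q)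
    (σ γ τ : ℝ) (hγ : 0 ≤ γ * σ) (h1 : E (fun ω => v (G ω)) = 0)
    (h2 : E (fun ω => v (G ω) ^ 2) = σ ^ 2)
    (hcorr : γ * σ ≤ E (fun x : Fin n → Ω =>
      (∑ j, v (G (x j))) * T5 ((∑ j, (sgnZ (v (G (x j))) : ℝ)) / n)))
    (hτ : ∑ a, cmean (fun ω => cls (G ω)) (fun ω => (v (G ω) -
      cmean (fun ω => cls (G ω)) (fun ω => v (G ω)) (cls (G ω))) ^ 2) a ≤ τ) :
    ∃ u : (Fin n ⊕ (L × Fin n) × Q → K) ⊕ Bool → ℝ,
      E (fun y : Fin n ⊕ (L × Fin n) × Q → Ω =>
        (∑ j, v (G (y j)) - u (Hm v cls (fun j => G (y j)))) ^ 2) ≤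
      E (fun y : (L × Fin n) × Q → Ω => ind (allGood ((fun ω => cls (G ω)) ∘ y))) *
        (n * σ ^ 2 - (γ * σ) ^ 2 + Fintype.card L * n * τ) := by
  have : Nonempty (Fin n) := ⟨⟨0, hn⟩⟩
  set q : Ω → Q := fun ω => cls (G ω) with hq
  set cm : Q → ℝ := cmean q (fun ω => v (G ω)) with hcm
  set r : Ω → ℝ := fun ω => v (G ω) - cm (q ω) with hr
  have hr0 : ∀ φ : Q → ℝ, E (fun ω => r ω * φ (q ω)) = 0 := resid_orth q (fun ω => v (G ω))
  set π := E (fun y : (L × Fin n) × Q → Ω => ind (allGood (q ∘ y))) with hπ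
  have hπ0 : 0 ≤ π := E_nonneg fun _ => ind_nonneg _
  refine ⟨Sum.elim (fun a => ∑ j, v (a j))
    (fun β => γ * σ * sg β + (Fintype.card L * Fintype.card (Fin n)) * ∑ a, cm a), ?_⟩
  let X : (Fin n → Ω) → (L → Bool) → ℝ := fun ym e =>
    ∑ i, v (G (ym i)) - γ * σ * sg (rnd (cnt n (Wz v (fun i => G (ym i)))) e)
  rw [← E_equiv (Equiv.sumArrowEquivProdArrow (Fin n) ((L × Fin n) × Q) Ω).symm, E_prod]
  have hpt : ∀ (ym : Fin n → Ω) (yr : (L × Fin n) × Q → Ω),
      (∑ j, v (G ((Equiv.sumArrowEquivProdArrow (Fin n) ((L × Fin n) × Q) Ω).symm (ym, yr) j)) -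
        Sum.elim (fun a => ∑ j, v (a j))
          (fun β => γ * σ * sg β + (Fintype.card L * Fintype.card (Fin n)) * ∑ a, cm a)
          (Hm v cls (fun j => G ((Equiv.sumArrowEquivProdArrow (Fin n) ((L × Fin n) × Q) Ω).symm
            (ym, yr) j)))) ^ 2 =
      ind (allGood (q ∘ yr)) * X ym (bits (q ∘ yr)) ^ 2 +
        (2 * ((ind (allGood (q ∘ yr)) * X ym (bits (q ∘ yr))) * ∑ j, r (yr j)) +
          ind (allGood (q ∘ yr)) * (∑ j, r (yr j)) ^ 2) := by
    intro ym yr
    by_cases h : allGood (q ∘ yr)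
    · have h3 : Hm v cls (fun j => G ((Equiv.sumArrowEquivProdArrow (Fin n) ((L × Fin n) × Q)
          Ω).symm (ym, yr) j)) =
          Sum.inr (rnd (cnt n (Wz v (fun i => G (ym i)))) (bits (q ∘ yr))) := if_pos h
      rw [h3, ind_pos h, Sum.elim_inr, ← sum_of_allGood h cm, Fintype.sum_sum_type]
      simp only [X, hr, Finset.sum_sub_distrib, Equiv.sumArrowEquivProdArrow_symm_apply_inl,
        Equiv.sumArrowEquivProdArrow_symm_apply_inr, Function.comp_apply]
      ring
    · have h3 : Hm v cls (fun j => G ((Equiv.sumArrowEquivProdArrow (Fin n) ((L × Fin n) × Q)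
          Ω).symm (ym, yr) j)) = Sum.inl (fun j => G ((Equiv.sumArrowEquivProdArrow (Fin n)
            ((L × Fin n) × Q) Ω).symm (ym, yr) j)) := if_neg h
      rw [h3, ind_neg h, Sum.elim_inl]
      ring
  simp only [hpt, E_add, E_const_mul]
  have h3 : ∀ ym, E (fun yr : (L × Fin n) × Q → Ω =>
      ind (allGood (q ∘ yr)) * X ym (bits (q ∘ yr)) * ∑ j, r (yr j)) = 0 := fun ym =>
    resid_one q r hr0 (fun κ => ind (allGood κ) * X ym (bits κ))
  have h4 : ∀ ym, E (fun yr : (L × Fin n) × Q → Ω =>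
      ind (allGood (q ∘ yr)) * X ym (bits (q ∘ yr)) ^ 2) =
      π * ((∑ i, v (G (ym i))) ^ 2 - 2 * (γ * σ) * ((∑ i, v (G (ym i))) *
        T5 ((∑ j, (sgnZ (v (G (ym j))) : ℝ)) / n)) + (γ * σ) ^ 2) := by
    intro ym
    rw [E_bits q (fun e => X ym e ^ 2)]
    congr 1
    have h5 : ∀ e, X ym e ^ 2 = (∑ i, v (G (ym i))) ^ 2 - 2 * (γ * σ) * ((∑ i, v (G (ym i))) *
        sg (rnd (cnt n (Wz v (fun i => G (ym i)))) e)) + (γ * σ) ^ 2 := by
      intro e
      have := sg_mul_self (rnd (cnt n (Wz v (fun i => G (ym i)))) e)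
      simp only [X]
      linear_combination (γ * σ) ^ 2 * this
    simp only [h5, E_add, E_sub, E_const, E_const_mul, E_rnd_cnt hn hL]
    simp [Wz]
  have h5 : E (fun yr : (L × Fin n) × Q → Ω => ind (allGood (q ∘ yr)) * (∑ j, r (yr j)) ^ 2) ≤
      π * (Fintype.card L * n * τ) := by
    rw [resid_two q r hr0 (fun κ => ind (allGood κ)), hπ, ← E_mul_const]
    refine E_mono fun yr => ?_
    by_cases h : allGood (q ∘ yr)
    · have h6 := sum_of_allGood h (cmean q (fun ω => r ω ^ 2))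
      simp only [Function.comp_apply, Fintype.card_fin] at h6
      rw [h6]
      exact mul_le_mul_of_nonneg_left (mul_le_mul_of_nonneg_left hτ (by positivity))
        (ind_nonneg _)
    · rw [ind_neg h, zero_mul, zero_mul]
  have h6 := (moments (J := Fin n) (fun _ ω => v (G ω)) (fun _ => h1) Finset.univ).2.1
  simp only [Finset.sum_const, Finset.card_univ, nsmul_eq_mul, Fintype.card_fin, h2] at h6
  simp only [h3, h4, E_const, E_const_mul, E_add, E_sub, h6, mul_zero, zero_add]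
  have h7 := mul_le_mul_of_nonneg_left (mul_le_mul_of_nonneg_left hcorr hγ) hπ0
  nlinarith

end

/-- the gain step -/
lemma gain : ∃ η : ℝ, 0 < η ∧ ∀ ρ : ℝ, 0 < ρ → Nice ρ → Good (ρ * (1 + η)) := by
  obtain ⟨s, n, r, hs, hn, hr⟩ : ∃ s n r : ℕ, 256 ≤ s ∧ n = s ^ 2 ∧ 2 ^ r = 2 * n ^ 5 :=
    ⟨2 ^ 8, 2 ^ 16, 81, by norm_num, by norm_num, by norm_num⟩
  have hn0 : 0 < n := by rw [hn]; positivity
  have hn5 : 5 ≤ n := by rw [hn]; nlinarith
  have hr0 : 0 < r := by
    rcases Nat.eq_zero_or_pos r with h | h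
    · rw [h] at hr; omega
    · exact h
  have hnr : (5 : ℝ) ≤ n := by exact_mod_cast hn5
  have hrr : (1 : ℝ) ≤ r := by exact_mod_cast hr0
  have hsr : (256 : ℝ) ≤ s := by exact_mod_cast hs
  obtain ⟨k0, p0, hp0, hp1, hcl⟩ := classes (1 / (5 * r * n)) (by positivity)
  set η : ℝ := p0 ^ (r * n * k0) / (4 * (n + r * n * k0)) with hη
  have hη0 : 0 < η := by positivity
  refine ⟨η / 2, by positivity, fun ρ hρ hN => ?_⟩
  obtain ⟨ι, K, _, _, G, v, d, hG, hd, hv, hv4, hsym⟩ := hN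
  have hdr : (1 : ℝ) ≤ d := by exact_mod_cast hd
  have hσ2 : 0 < E (fun x => v (G x) ^ 2) := lt_of_lt_of_le (by positivity) hv
  set σ := Real.sqrt (E (fun x => v (G x) ^ 2)) with hσ
  have hσ0 : 0 < σ := Real.sqrt_pos.mpr hσ2
  have h2 : E (fun x => v (G x) ^ 2) = σ ^ 2 := (Real.sq_sqrt hσ2.le).symm
  have h4 : E (fun x => v (G x) ^ 4) ≤ 4 * σ ^ 4 := by
    rw [h2] at hv4; calc _ ≤ _ := hv4
      _ = _ := by ring
  obtain ⟨Q, _, _, cls, z, t, hQ, hp, hz, ht⟩ := hcl (ι → Bool) (fun x => v (G x)) σ hσ0 h2 h4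
  have hε1 : 1 / (5 * (r : ℝ) * n) < 1 := by
    rw [div_lt_one (by positivity)]; nlinarith
  have : Nontrivial Q := by
    rcases subsingleton_or_nontrivial Q with hQ' | hQ'
    · exfalso
      let a : Q := cls 0
      have h5 := hz a
      have h6 : ∀ x, ind (cls (v (G x)) = a) = 1 := fun x => ind_pos (Subsingleton.elim _ _)
      have h7 : ∀ x, (v (G x) - z a) ^ 2 = v (G x) ^ 2 - 2 * z a * v (G x) + z a ^ 2 :=
        fun x => by ring
      simp only [h6, h7, mul_one, E_const, E_add, E_sub, E_const_mul, h2, hG.E_v] at h5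
      rw [Fintype.sum_subsingleton _ a] at ht
      nlinarith [sq_nonneg (z a), pow_pos hσ0 2]
    · exact hQ'
  have hL : Fintype.card (Fin r → Bool) = 2 * n ^ 5 := by simp [hr]
  have hs0 : E (fun x => (sgnZ (v (G x)) : ℝ)) = 0 := by
    have := hsym (fun t => (sgnZ t : ℝ))
    simp only [sgnZ_neg, Int.cast_neg, E_neg] at this
    linarith
  have hcorr := main_corr (fun x => v (G x)) σ hσ0 hG.E_v h2 h4 hs0 n s hn (by omega)
  set γ : ℝ := 5 / 2 - 40 / s with hγ
  have hγ1 : 234 / 100 ≤ γ := by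
    have : 40 / (s : ℝ) ≤ 40 / 256 := by gcongr
    linarith
  have hτ : ∑ a, cmean (fun ω => cls (v (G ω))) (fun ω => (v (G ω) -
      cmean (fun ω => cls (v (G ω))) (fun ω => v (G ω)) (cls (v (G ω)))) ^ 2) a ≤
      1 / (5 * r * n) * σ ^ 2 :=
    le_trans (Finset.sum_le_sum fun a _ => cvar_le (fun ω => cls (v (G ω))) (fun ω => v (G ω)) a
      (z a) (t a) (hp0.trans_le (hp a)) (hz a)) ht
  obtain ⟨u, hu⟩ := err_le (L := Fin r) hn0 hL G v (fun a => cls (v a)) σ γ _
    (mul_nonneg (by linarith) hσ0.le) hG.E_v h2 hcorr hτ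
  set π := E (fun y : (Fin r × Fin n) × Q → ι → Bool =>
    ind (allGood ((fun ω => cls (v (G ω))) ∘ y))) with hπ
  set k := Fintype.card Q with hk
  have hπ1 : π ≤ 1 := by
    rw [← E_const (α := (Fin r × Fin n) × Q → ι → Bool) 1]
    exact E_mono fun _ => ind_le_one _
  have hπ0 : p0 ^ (r * n * k0) ≤ π := by
    refine le_trans ?_ (E_allGood_ge (fun ω => cls (v (G ω))) hp0.le hp)
    refine pow_le_pow_of_le_one hp0.le hp1 ?_
    simp only [Fintype.card_prod, Fintype.card_fin]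
    exact Nat.mul_le_mul_left _ hQ
  have hπ0' : 0 ≤ π := le_trans (by positivity) hπ0
  have hP := Gad.pi (J := Fin n ⊕ (Fin r × Fin n) × Q) (G := fun _ => G) (v := fun _ => v)
    (c := fun _ _ => d) (fun _ => hG)
  simp only [Finset.sum_const, Finset.card_univ, smul_eq_mul, Fintype.card_sum, Fintype.card_prod,
    Fintype.card_fin, ← hk] at hP
  let c' : (Fin n ⊕ (Fin r × Fin n) × Q → K) ⊕ Bool → ℕ :=
    Sum.elim (fun _ => (n + r * n * k) * d) (fun _ => (r * n * k + 5) * d)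
  have hQg := hP.coarsen (Hm v (fun a => cls (v a))) c' (by
    rintro (a | β)
    · exact hP.comp_mem (fun b => ind (Hm v (fun a => cls (v a)) b = Sum.inl a))
    · have := Hm_deg (L := Fin r) hn0 hL hG (fun a => cls (v a)) β
      rw [Fintype.card_fin] at this
      exact this)
  have hc : E (fun x : (Fin n ⊕ (Fin r × Fin n) × Q) × ι → Bool =>
      (c' (Hm v (fun a => cls (v a)) (fun j => G (blk x j))) : ℝ)) =
      ((n + r * n * k) - π * (n - 5)) * d := by
    rw [E_blk (fun y => (c' (Hm v (fun a => cls (v a)) (fun j => G (y j))) : ℝ)),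
      ← E_equiv (Equiv.sumArrowEquivProdArrow (Fin n) ((Fin r × Fin n) × Q) (ι → Bool)).symm,
      E_prod]
    have h5 : ∀ (ym : Fin n → ι → Bool) (yr : (Fin r × Fin n) × Q → ι → Bool),
        (c' (Hm v (fun a => cls (v a)) (fun j => G ((Equiv.sumArrowEquivProdArrow (Fin n)
          ((Fin r × Fin n) × Q) (ι → Bool)).symm (ym, yr) j))) : ℝ) =
        (n + r * n * k) * d - (n - 5) * d * ind (allGood ((fun ω => cls (v (G ω))) ∘ yr)) := by
      intro ym yr
      by_cases h : allGood ((fun ω => cls (v (G ω))) ∘ yr)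
      · rw [ind_pos h]
        unfold Hm
        erw [if_pos h]
        simp only [c', Sum.elim_inr]
        push_cast; ring
      · rw [ind_neg h]
        unfold Hm
        erw [if_neg h]
        simp only [c', Sum.elim_inl]
        push_cast; ring
    simp only [h5, E_sub, E_const, E_const_mul, ← hπ]
    ring
  have hkr : (k : ℝ) ≤ k0 := by exact_mod_cast hQ
  have hk0 : (0 : ℝ) ≤ k := by positivity
  have hpos : (0 : ℝ) < (n + r * n * k) - π * (n - 5) := by
    have : 0 ≤ (r : ℝ) * n * k := by positivity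
    nlinarith
  refine good_of_avg hQg (ρ' := ρ * (1 + η)) (by positivity) (by nlinarith) ?_ ?_
  · rw [hc]; positivity
  · rw [hc]
    have hls := cmean_sq_ge (fun x : (Fin n ⊕ (Fin r × Fin n) × Q) × ι → Bool =>
      Hm v (fun a => cls (v a)) (fun j => G (blk x j))) (fun x => ∑ j, v (G (blk x j))) u
    refine le_trans ?_ hls
    rw [E_blk (fun y => (∑ j, v (G (y j))) ^ 2), E_blk (fun y => ((∑ j, v (G (y j))) -
      u (Hm v (fun a => cls (v a)) (fun j => G (y j)))) ^ 2)]
    have h6 := (moments (J := Fin n ⊕ (Fin r × Fin n) × Q) (fun _ ω => v (G ω))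
      (fun _ => hG.E_v) Finset.univ).2.1
    simp only [Finset.sum_const, Finset.card_univ, nsmul_eq_mul, Fintype.card_sum,
      Fintype.card_prod, Fintype.card_fin, h2, ← hk] at h6
    rw [h6]
    rw [Fintype.card_fin] at hu
    have h7 : (r : ℝ) * n * (1 / (5 * r * n) * σ ^ 2) = 1 / 5 * σ ^ 2 := by field_simp
    rw [h7] at hu
    have h8 : η * ((n + r * n * k) - π * (n - 5)) ≤ π / 4 := by
      have h9 : (n + r * n * k : ℝ) - π * (n - 5) ≤ n + r * n * k0 := by
        have : (r : ℝ) * n * k ≤ r * n * k0 := by gcongr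
        nlinarith
      calc _ ≤ η * (n + r * n * k0) := by gcongr
        _ = p0 ^ (r * n * k0) / 4 := by rw [hη]; field_simp
        _ ≤ _ := by gcongr
    have h9 : ρ * (1 + η) * (((n + r * n * k) - π * (n - 5)) * d) ≤
        σ ^ 2 * ((1 + η) * ((n + r * n * k) - π * (n - 5))) := by
      rw [h2] at hv
      calc _ = ρ * d * ((1 + η) * ((n + r * n * k) - π * (n - 5))) := by ring
        _ ≤ _ := by gcongr
    have h10 : σ ^ 2 * ((1 + η) * ((n + r * n * k) - π * (n - 5))) ≤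
        σ ^ 2 * (((n + r * n * k) - π * (n - 5)) + π / 4) := by
      gcongr; linarith
    have h11 : 5.45 ≤ γ ^ 2 := by nlinarith
    have h12 : π * σ ^ 2 * 5.45 ≤ π * σ ^ 2 * γ ^ 2 := by gcongr
    push_cast
    nlinarith

lemma good_all (ρ : ℝ) : Good ρ := by
  obtain ⟨η, hη, h⟩ := gain
  have h1 : ∀ j : ℕ, Good ((1 + η) ^ j) := by
    intro j
    induction j with
    | zero => simpa using good_one
    | succ j ih =>
      rw [pow_succ]
      exact h _ (by positivity) (ih.nice (by positivity))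
  obtain ⟨j, hj⟩ := pow_unbounded_of_one_lt ρ (show 1 < 1 + η by linarith)
  obtain ⟨ι, K, _, _, G, v, d, hG, hd, hv⟩ := h1 j
  refine ⟨ι, K, inferInstance, inferInstance, G, v, d, hG, hd, le_trans ?_ hv⟩
  gcongr

end Crest.Agent.R63
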